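import Mathlib

/-!
# Four piecewise-linear maps of the line and their sign cocycle

`shift j` are degree-one maps with `shift (j+2)` inverse to `shift j`; `chi j` is `1` on the
quarter `[j/4,(j+1)/4)+ℤ` and `-1` elsewhere. Along random words the walk of signs drifts by
`-1/2` per step forwards and by `+1/2` per step backwards.
-/

namespace Vale.Agent.P125

open Finset

/-- The basic degree-one map. -/
def aMap (t : ℚ) : ℚ :=
  (if t - ⌊t - 1 / 2⌋ < 3 / 4 then 3 * (t - ⌊t - 1 / 2⌋) - 5 / 4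
    else (t - ⌊t - 1 / 2⌋) / 3 + 3 / 4) + ⌊t - 1 / 2⌋

/-- Its four conjugates by quarter translations. -/
def shift (j : ZMod 4) (t : ℚ) : ℚ := aMap (t - (j.val : ℚ) / 4) + (j.val : ℚ) / 4

/-- The sign function of the quarter `j`. -/
def chi (j : ZMod 4) (t : ℚ) : ℝ := if ((⌊4 * t⌋ : ℤ) : ZMod 4) = j then 1 else -1

lemma aMap_spec (f : ℚ) (k : ℤ) (h1 : 1 / 2 ≤ f) (h2 : f < 3 / 2) :
    aMap (f + k) = (if f < 3 / 4 then 3 * f - 5 / 4 else f / 3 + 3 / 4) + k := by
  have e : ⌊f + (k : ℚ) - 1 / 2⌋ = k := Int.floor_eq_iff.2 ⟨by linarith, by linarith⟩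
  simp only [aMap, e, add_sub_cancel_right]

lemma exists_frac_repr (t : ℚ) : ∃ (f : ℚ) (k : ℤ), t = f + k ∧ 1 / 2 ≤ f ∧ f < 3 / 2 :=
  ⟨t - ⌊t - 1 / 2⌋, ⌊t - 1 / 2⌋, by ring, by have := Int.floor_le (t - 1 / 2); linarith,
    by have := Int.lt_floor_add_one (t - 1 / 2); linarith⟩

lemma aMap_add_int (t : ℚ) (m : ℤ) : aMap (t + m) = aMap t + m := by
  obtain ⟨f, k, rfl, h1, h2⟩ := exists_frac_repr t
  have e : f + (k : ℚ) + (m : ℚ) = f + ((k + m : ℤ) : ℚ) := by push_cast; ring
  rw [e, aMap_spec f _ h1 h2, aMap_spec f _ h1 h2]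
  push_cast; ring

lemma aMap_near (t : ℚ) : |aMap t - t| ≤ 1 / 4 := by
  obtain ⟨f, k, rfl, h1, h2⟩ := exists_frac_repr t
  rw [aMap_spec f _ h1 h2, abs_le]
  split_ifs <;> constructor <;> linarith

lemma aMap_strictMono : StrictMono aMap := by
  intro t t' h
  obtain ⟨f, k, rfl, h1, h2⟩ := exists_frac_repr t
  obtain ⟨f', k', rfl, h1', h2'⟩ := exists_frac_repr t'
  rw [aMap_spec f _ h1 h2, aMap_spec f' _ h1' h2']
  rcases lt_trichotomy k k' with hk | rfl | hk
  · have : (k : ℚ) + 1 ≤ k' := by exact_mod_cast hk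
    split_ifs <;> linarith
  · split_ifs <;> linarith
  · have : (k' : ℚ) + 1 ≤ k := by exact_mod_cast hk
    linarith

lemma aMap_inv (t : ℚ) : aMap (aMap t - 1 / 2) = t - 1 / 2 := by
  obtain ⟨f, k, rfl, h1, h2⟩ := exists_frac_repr t
  rw [aMap_spec f _ h1 h2]
  split_ifs with hf
  · have e : 3 * f - 5 / 4 + (k : ℚ) - 1 / 2 = (3 * f - 3 / 4) + ((k - 1 : ℤ) : ℚ) := by
      push_cast; ring
    rw [e, aMap_spec _ _ (by linarith) (by linarith), if_neg (by linarith)]
    push_cast; ring
  · have e : f / 3 + 3 / 4 + (k : ℚ) - 1 / 2 = (f / 3 + 1 / 4) + (k : ℚ) := by ring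
    rw [e, aMap_spec _ _ (by linarith) (by linarith), if_pos (by linarith)]
    ring

lemma aMap_inv' (t : ℚ) : aMap (aMap t + 1 / 2) = t + 1 / 2 := by
  have e : aMap t + 1 / 2 = (aMap t - 1 / 2) + ((1 : ℤ) : ℚ) := by push_cast; ring
  rw [e, aMap_add_int, aMap_inv]
  push_cast; ring

lemma shift_strictMono (j : ZMod 4) : StrictMono (shift j) := by
  intro t t' h
  simp only [shift]
  linarith [aMap_strictMono (show t - (j.val : ℚ) / 4 < t' - (j.val : ℚ) / 4 by linarith)]

lemma shift_near (j : ZMod 4) (t : ℚ) : t - 1 / 4 ≤ shift j t ∧ shift j t ≤ t + 1 / 4 := by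
  have := abs_le.1 (aMap_near (t - (j.val : ℚ) / 4))
  simp only [shift]
  constructor <;> linarith

lemma shift_add_int (j : ZMod 4) (t : ℚ) (m : ℤ) : shift j (t + m) = shift j t + m := by
  have e : t + (m : ℚ) - (j.val : ℚ) / 4 = t - (j.val : ℚ) / 4 + m := by ring
  simp only [shift, e, aMap_add_int]; ring

lemma val_add_two (j : ZMod 4) : (j + 2).val = j.val + 2 ∨ (j + 2).val + 2 = j.val := by
  revert j; decide

lemma add_two_add_two (j : ZMod 4) : j + 2 + 2 = j := by revert j; decide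

lemma shift_shift (j : ZMod 4) (t : ℚ) : shift (j + 2) (shift j t) = t := by
  simp only [shift]
  rcases val_add_two j with h | h
  · have e : ((j + 2).val : ℚ) = (j.val : ℚ) + 2 := by exact_mod_cast h
    have e' : aMap (t - (j.val : ℚ) / 4) + (j.val : ℚ) / 4 - ((j + 2).val : ℚ) / 4 =
        aMap (t - (j.val : ℚ) / 4) - 1 / 2 := by rw [e]; ring
    rw [e', aMap_inv, e]; ring
  · have e : ((j + 2).val : ℚ) + 2 = (j.val : ℚ) := by exact_mod_cast h
    have e' : aMap (t - (j.val : ℚ) / 4) + (j.val : ℚ) / 4 - ((j + 2).val : ℚ) / 4 =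
        aMap (t - (j.val : ℚ) / 4) + 1 / 2 := by rw [← e]; ring
    rw [e', aMap_inv', ← e]; ring

lemma shift_shift' (j : ZMod 4) (t : ℚ) : shift j (shift (j + 2) t) = t := by
  have := shift_shift (j + 2) t
  rwa [add_two_add_two] at this

lemma shift_le_iff (j : ZMod 4) (a t : ℚ) : shift (j + 2) a ≤ t ↔ a ≤ shift j t := by
  rw [← (shift_strictMono j).le_iff_le, shift_shift']

lemma chi_add_int (j : ZMod 4) (t : ℚ) (m : ℤ) : chi j (t + m) = chi j t := by
  have e : 4 * (t + (m : ℚ)) = 4 * t + ((4 * m : ℤ) : ℚ) := by push_cast; ring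
  have h4 : ((4 : ℤ) : ZMod 4) = 0 := by decide
  simp only [chi]
  rw [e, Int.floor_add_intCast, Int.cast_add, Int.cast_mul, h4, zero_mul, add_zero]

lemma sum_chi (t : ℚ) : ∑ j, chi j t = -2 := by
  have h : ∀ c : ZMod 4, ∑ j, (if c = j then (1 : ℝ) else -1) = -2 := by
    intro c
    have : ∀ j : ZMod 4, (if c = j then (1 : ℝ) else -1) = 2 * (if c = j then 1 else 0) - 1 := by
      intro j; split_ifs <;> norm_num
    simp only [this, sum_sub_distrib, ← mul_sum, sum_ite_eq, mem_univ, if_true, sum_const,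
      card_univ, ZMod.card]
    norm_num
  exact h _

lemma aMap_quarters (u : ℚ) :
    ((⌊4 * aMap u⌋ : ℤ) : ZMod 4) = 0 ↔ ¬ ((⌊4 * u⌋ : ℤ) : ZMod 4) = 2 := by
  obtain ⟨f, k, rfl, h1, h2⟩ := exists_frac_repr u
  have h4 : ((4 : ℤ) : ZMod 4) = 0 := by decide
  have e : ∀ x : ℚ, ((⌊4 * (x + (k : ℚ))⌋ : ℤ) : ZMod 4) = ((⌊4 * x⌋ : ℤ) : ZMod 4) := by
    intro x
    rw [show 4 * (x + (k : ℚ)) = 4 * x + ((4 * k : ℤ) : ℚ) by push_cast; ring,
      Int.floor_add_intCast]
    push_cast [h4]
    simp [show (4 : ZMod 4) = 0 by decide]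
  rw [aMap_spec f _ h1 h2, e, e]
  split_ifs with hf
  · have hl : ⌊4 * f⌋ = 2 := Int.floor_eq_iff.2 ⟨by push_cast; linarith, by push_cast; linarith⟩
    have hr1 : 1 ≤ ⌊4 * (3 * f - 5 / 4)⌋ := Int.le_floor.2 (by push_cast; linarith)
    have hr2 : ⌊4 * (3 * f - 5 / 4)⌋ < 4 := Int.floor_lt.2 (by push_cast; linarith)
    rw [hl]
    interval_cases ⌊4 * (3 * f - 5 / 4)⌋ <;> decide
  · have hr : ⌊4 * (f / 3 + 3 / 4)⌋ = 4 :=
      Int.floor_eq_iff.2 ⟨by push_cast; linarith, by push_cast; linarith⟩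
    have hl1 : 3 ≤ ⌊4 * f⌋ := Int.le_floor.2 (by push_cast; linarith)
    have hl2 : ⌊4 * f⌋ < 6 := Int.floor_lt.2 (by push_cast; linarith)
    rw [hr]
    interval_cases ⌊4 * f⌋ <;> decide

lemma chi_shift (j : ZMod 4) (t : ℚ) : chi j (shift j t) = -chi (j + 2) t := by
  set u := t - (j.val : ℚ) / 4 with hu
  have hv : ((j.val : ℤ) : ZMod 4) = j := by simp
  have e1 : ((⌊4 * shift j t⌋ : ℤ) : ZMod 4) = ((⌊4 * aMap u⌋ : ℤ) : ZMod 4) + j := by
    rw [show 4 * shift j t = 4 * aMap u + ((j.val : ℤ) : ℚ) by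
      simp only [shift, ← hu]; push_cast; ring, Int.floor_add_intCast, Int.cast_add, hv]
  have e2 : ((⌊4 * t⌋ : ℤ) : ZMod 4) = ((⌊4 * u⌋ : ℤ) : ZMod 4) + j := by
    rw [show 4 * t = 4 * u + ((j.val : ℤ) : ℚ) by rw [hu]; push_cast; ring,
      Int.floor_add_intCast, Int.cast_add, hv]
  simp only [chi, e1, e2]
  rw [show j + 2 = 2 + j by ring]
  simp only [add_eq_right, add_left_inj]
  have := aMap_quarters u
  by_cases h : ((⌊4 * u⌋ : ℤ) : ZMod 4) = 2
  · rw [if_pos h, if_neg (fun h' => this.1 h' h)]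
  · rw [if_neg h, if_pos (this.2 h)]; simp

/-- Break points of the cut-off sign function, `i ≤ 2N`. -/
def brk (N : ℕ) (j : ZMod 4) (i : ℕ) : ℚ :=
  if i % 2 = 0 then
    (if j = 0 then (if i = 0 then 1 / 12 else (i / 2 : ℕ))
    else if j = 1 then (if i = 2 * N then N else (i / 2 : ℕ) + 1 / 4)
    else if j = 2 then (if i = 0 then 0 else (i / 2 : ℕ) - 1 / 4)
    else (if i = 2 * N then N - 1 / 12 else (i / 2 : ℕ)))
  else
    (if j = 0 then (i / 2 : ℕ) + 1 / 4
    else if j = 3 then (i / 2 : ℕ) + 3 / 4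
    else (i / 2 : ℕ) + 1 / 2)

/-- The sign on the first piece. -/
def firstSign (j : ZMod 4) : ℝ := if j.val < 2 then 1 else -1

lemma zmod_four (j : ZMod 4) : j = 0 ∨ j = 1 ∨ j = 2 ∨ j = 3 := by
  revert j; decide

lemma brk_even (N : ℕ) (k : ℕ) :
    brk N 0 (2 * k) = (if k = 0 then 1 / 12 else (k : ℚ)) ∧
    brk N 1 (2 * k) = (if k = N then (N : ℚ) else (k : ℚ) + 1 / 4) ∧
    brk N 2 (2 * k) = (if k = 0 then 0 else (k : ℚ) - 1 / 4) ∧
    brk N 3 (2 * k) = (if k = N then (N : ℚ) - 1 / 12 else (k : ℚ)) := by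
  have e1 : (2 * k) % 2 = 0 := by omega
  have e2 : (2 * k) / 2 = k := by omega
  have e3 : (2 * k = 2 * N) ↔ k = N := by omega
  simp only [brk, e1, e2, e3, if_true, Nat.mul_eq_zero, OfNat.ofNat_ne_zero, false_or]
  simp (config := { decide := true })

lemma brk_odd (N : ℕ) (k : ℕ) :
    brk N 0 (2 * k + 1) = (k : ℚ) + 1 / 4 ∧ brk N 1 (2 * k + 1) = (k : ℚ) + 1 / 2 ∧
    brk N 2 (2 * k + 1) = (k : ℚ) + 1 / 2 ∧ brk N 3 (2 * k + 1) = (k : ℚ) + 3 / 4 := by
  have e1 : (2 * k + 1) % 2 = 1 := by omega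
  have e2 : (2 * k + 1) / 2 = k := by omega
  simp only [brk, e1, e2]
  simp (config := { decide := true })

lemma brk_lt_succ (N : ℕ) (j : ZMod 4) (i : ℕ) (hi : i < 2 * N) :
    brk N j i < brk N j (i + 1) := by
  obtain ⟨k, rfl | rfl⟩ := Nat.even_or_odd' i
  · obtain ⟨a0, a1, a2, a3⟩ := brk_even N k
    obtain ⟨b0, b1, b2, b3⟩ := brk_odd N k
    have hk : k ≠ N := by omega
    rcases zmod_four j with rfl | rfl | rfl | rfl <;>
      simp only [a0, a1, a2, a3, b0, b1, b2, b3, hk, if_false] <;> (try split_ifs with h) <;>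
      (try subst h) <;> (try push_cast) <;> linarith
  · obtain ⟨a0, a1, a2, a3⟩ := brk_even N (k + 1)
    obtain ⟨b0, b1, b2, b3⟩ := brk_odd N k
    rw [show 2 * k + 1 + 1 = 2 * (k + 1) by ring]
    have hk : k + 1 ≤ N := by omega
    have hk' : (k : ℚ) + 1 ≤ N := by exact_mod_cast hk
    rcases zmod_four j with rfl | rfl | rfl | rfl <;>
      simp only [a0, a1, a2, a3, b0, b1, b2, b3, Nat.succ_ne_zero, if_false] <;>
      (try split_ifs with h) <;> (try push_cast) <;> linarith

lemma brk_strictMono (N : ℕ) (j : ZMod 4) {i i' : ℕ} (h : i < i') (hi' : i' ≤ 2 * N) :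
    brk N j i < brk N j i' := by
  induction i' with
  | zero => omega
  | succ m ih =>
    rcases Nat.lt_succ_iff_lt_or_eq.1 h with h' | rfl
    · exact (ih h' (by omega)).trans (brk_lt_succ N j m (by omega))
    · exact brk_lt_succ N j i (by omega)

lemma shift_brk (N : ℕ) (hN : 1 ≤ N) (j : ZMod 4) (i : ℕ) (hi : i ≤ 2 * N) :
    shift (j + 2) (brk N j i) = brk N (j + 2) i := by
  suffices h : shift 2 (brk N 0 i) = brk N 2 i ∧ shift 3 (brk N 1 i) = brk N 3 i by
    obtain rfl | rfl | rfl | rfl := zmod_four j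
    · exact h.1
    · exact h.2
    · rw [show (2 : ZMod 4) + 2 = 0 by decide, ← h.1]
      exact shift_shift' 0 _
    · rw [show (3 : ZMod 4) + 2 = 1 by decide, ← h.2]
      exact shift_shift' 1 _
  have v2 : ((2 : ZMod 4).val : ℚ) = 2 := by norm_num [show (2 : ZMod 4).val = 2 from rfl]
  have v3 : ((3 : ZMod 4).val : ℚ) = 3 := by norm_num [show (3 : ZMod 4).val = 3 from rfl]
  simp only [shift, v2, v3]
  obtain ⟨k, rfl | rfl⟩ := Nat.even_or_odd' i
  · obtain ⟨a0, a1, a2, a3⟩ := brk_even N k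
    rw [a0, a1, a2, a3]
    constructor
    · split_ifs with hk
      · rw [show (1 : ℚ) / 12 - 2 / 4 = 7 / 12 + ((-1 : ℤ) : ℚ) by norm_num,
          aMap_spec _ _ (by norm_num) (by norm_num)]
        norm_num
      · rw [show (k : ℚ) - 2 / 4 = 1 / 2 + (((k : ℤ) - 1 : ℤ) : ℚ) by push_cast; ring,
          aMap_spec _ _ (by norm_num) (by norm_num)]
        norm_num <;> ring
    · split_ifs with hk
      · rw [show (N : ℚ) - 3 / 4 = 5 / 4 + (((N : ℤ) - 2 : ℤ) : ℚ) by push_cast; ring,
          aMap_spec _ _ (by norm_num) (by norm_num)]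
        norm_num <;> ring
      · rw [show (k : ℚ) + 1 / 4 - 3 / 4 = 1 / 2 + (((k : ℤ) - 1 : ℤ) : ℚ) by push_cast; ring,
          aMap_spec _ _ (by norm_num) (by norm_num)]
        norm_num <;> ring
  · obtain ⟨b0, b1, b2, b3⟩ := brk_odd N k
    rw [b0, b1, b2, b3]
    constructor
    · rw [show (k : ℚ) + 1 / 4 - 2 / 4 = 3 / 4 + (((k : ℤ) - 1 : ℤ) : ℚ) by push_cast; ring,
        aMap_spec _ _ (by norm_num) (by norm_num)]
      norm_num <;> ring
    · rw [show (k : ℚ) + 1 / 2 - 3 / 4 = 3 / 4 + (((k : ℤ) - 1 : ℤ) : ℚ) by push_cast; ring,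
        aMap_spec _ _ (by norm_num) (by norm_num)]
      norm_num <;> ring

/-- Jumps of the cut-off sign function. -/
noncomputable def jumps (N : ℕ) (j : ZMod 4) : ℚ →₀ ℝ :=
  firstSign j • ∑ i ∈ range (2 * N), (-1 : ℝ) ^ i •
    (Finsupp.single (brk N j i) 1 - Finsupp.single (brk N j (i + 1)) 1)

lemma firstSign_add_two (j : ZMod 4) : firstSign (j + 2) = -firstSign j := by
  rcases zmod_four j with rfl | rfl | rfl | rfl <;>
    simp [firstSign, show ((0 : ZMod 4) + 2).val = 2 from rfl,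
      show ((1 : ZMod 4) + 2).val = 3 from rfl, show ((2 : ZMod 4) + 2).val = 0 from rfl,
      show ((3 : ZMod 4) + 2).val = 1 from rfl, show (1 : ZMod 4).val = 1 from rfl,
      show (2 : ZMod 4).val = 2 from rfl, show (3 : ZMod 4).val = 3 from rfl]

lemma jumps_antisymm (N : ℕ) (hN : 1 ≤ N) (j : ZMod 4) :
    Finsupp.mapDomain (shift (j + 2)) (jumps N j) = -jumps N (j + 2) := by
  have h : Finsupp.mapDomain (shift (j + 2)) (jumps N j) =
      Finsupp.lmapDomain ℝ ℝ (shift (j + 2)) (jumps N j) := rfl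
  rw [h]
  simp only [jumps, map_smul, map_sum, map_sub, Finsupp.lmapDomain_apply,
    Finsupp.mapDomain_single, firstSign_add_two, neg_smul, neg_neg]
  refine congrArg _ (sum_congr rfl fun i hi => ?_)
  rw [shift_brk N hN j i (mem_range.1 hi).le, shift_brk N hN j (i + 1) (mem_range.1 hi)]

/-- Cumulative sum of a jump vector. -/
noncomputable def cum (D : ℚ →₀ ℝ) (t : ℚ) : ℝ := D.sum fun a d => if a ≤ t then d else 0

lemma cum_add (D D' : ℚ →₀ ℝ) (t : ℚ) : cum (D + D') t = cum D t + cum D' t :=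
  Finsupp.sum_add_index' (fun a => by simp) (fun a b c => by split_ifs <;> simp)

lemma cum_mapDomain (j : ZMod 4) (D : ℚ →₀ ℝ) (t : ℚ) :
    cum (Finsupp.mapDomain (shift (j + 2)) D) t = cum D (shift j t) := by
  rw [cum, Finsupp.sum_mapDomain_index (fun a => by simp) (fun a b c => by split_ifs <;> simp)]
  exact Finsupp.sum_congr fun a _ => if_congr (shift_le_iff j a t) rfl rfl

lemma cum_jumps_formula (N : ℕ) (j : ZMod 4) (t : ℚ) :
    cum (jumps N j) t = firstSign j * ∑ i ∈ range (2 * N), (-1 : ℝ) ^ i *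
      ((if brk N j i ≤ t then 1 else 0) - (if brk N j (i + 1) ≤ t then 1 else 0)) := by
  let L : (ℚ →₀ ℝ) →ₗ[ℝ] ℝ :=
    Finsupp.lsum ℝ fun a => (if a ≤ t then (1 : ℝ) else 0) • LinearMap.id
  have hL : ∀ D, cum D t = L D := fun D => Finsupp.sum_congr fun a _ => by
    split_ifs <;> simp [*]
  simp only [hL, jumps, map_smul, map_sum, map_sub, smul_eq_mul]
  simp only [L, Finsupp.lsum_single, LinearMap.smul_apply, LinearMap.id_apply, smul_eq_mul,
    mul_one]

lemma cum_jumps_piece (N : ℕ) (j : ZMod 4) (t : ℚ) (i₀ : ℕ) (hi : i₀ < 2 * N)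
    (h1 : brk N j i₀ ≤ t) (h2 : t < brk N j (i₀ + 1)) :
    cum (jumps N j) t = firstSign j * (-1) ^ i₀ := by
  rw [cum_jumps_formula, sum_eq_single_of_mem i₀ (mem_range.2 hi)]
  · rw [if_pos h1, if_neg (not_le.2 h2)]; ring
  · intro i hi' hne
    have hi'' := mem_range.1 hi'
    rcases lt_or_gt_of_ne hne with hlt | hgt
    · have e1 : brk N j (i + 1) ≤ t := by
        rcases eq_or_lt_of_le (Nat.succ_le_of_lt hlt) with h | h
        · rw [← h] at h1; exact h1
        · exact ((brk_strictMono N j h (by omega)).le).trans h1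
      have e2 : brk N j i ≤ t := ((brk_lt_succ N j i hi'').le).trans e1
      rw [if_pos e1, if_pos e2]; ring
    · have e1 : t < brk N j i := by
        rcases eq_or_lt_of_le (Nat.succ_le_of_lt hgt) with h | h
        · rw [← h]; exact h2
        · exact h2.trans (brk_strictMono N j h (by omega))
      have e2 : t < brk N j (i + 1) := e1.trans (brk_lt_succ N j i hi'')
      rw [if_neg (not_le.2 e1), if_neg (not_le.2 e2)]; ring

lemma cum_jumps (N : ℕ) (j : ZMod 4) (t : ℚ) (h1 : 1 ≤ t) (h2 : t ≤ (N : ℚ) - 1) :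
    cum (jumps N j) t = chi j t := by
  obtain ⟨k, hk⟩ : ∃ k : ℕ, ⌊t⌋ = k := ⟨⌊t⌋.toNat, (Int.toNat_of_nonneg
    (Int.floor_nonneg.2 (by linarith))).symm⟩
  have hkl : (k : ℚ) ≤ t := by have := Int.floor_le t; rw [hk] at this; exact_mod_cast this
  have hku : t < (k : ℚ) + 1 := by
    have := Int.lt_floor_add_one t; rw [hk] at this; exact_mod_cast this
  have hk1 : 1 ≤ k := by
    have : (1 : ℚ) < (k : ℚ) + 1 := lt_of_le_of_lt h1 hku
    have : 0 < k := by exact_mod_cast (by linarith : (0 : ℚ) < (k : ℚ))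
    omega
  have hkN : k + 1 ≤ N := by
    have : (k : ℚ) + 1 ≤ (N : ℚ) := by linarith
    exact_mod_cast this
  have hN2 : (k : ℚ) < t → k + 2 ≤ N := fun h => by
    have : ((k + 1 : ℕ) : ℚ) < (N : ℚ) := by push_cast; linarith
    have : k + 1 < N := by exact_mod_cast this
    omega
  have h40 : ((4 : ℤ) : ZMod 4) = 0 := by decide
  have hchi : ∀ (r : ℤ), (4 * (k : ℚ) + (r : ℚ)) ≤ 4 * t → 4 * t < 4 * (k : ℚ) + (r : ℚ) + 1 →
      ((⌊4 * t⌋ : ℤ) : ZMod 4) = (r : ZMod 4) := by
    intro r hr1 hr2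
    have : ⌊4 * t⌋ = 4 * (k : ℤ) + r :=
      Int.floor_eq_iff.2 ⟨by push_cast; linarith, by push_cast; linarith⟩
    rw [this, Int.cast_add, Int.cast_mul, h40, zero_mul, zero_add]
  obtain ⟨a0, a1, a2, a3⟩ := brk_even N k
  obtain ⟨b0, b1, b2, b3⟩ := brk_odd N k
  obtain ⟨c0, c1, c2, c3⟩ := brk_even N (k + 1)
  obtain ⟨d0, d1, d2, d3⟩ := brk_odd N (k - 1)
  obtain ⟨e0, e1, e2, e3⟩ := brk_odd N (k + 1)
  rw [if_neg (by omega : k ≠ 0)] at a0 a2
  rw [if_neg (by omega : k ≠ N)] at a1 a3
  rw [if_neg (by omega : k + 1 ≠ 0)] at c0 c2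
  have hpe : ∀ m : ℕ, (-1 : ℝ) ^ (2 * m) = 1 := fun m => by rw [pow_mul]; norm_num
  have hpo : ∀ m : ℕ, (-1 : ℝ) ^ (2 * m + 1) = -1 := fun m => by rw [pow_succ, hpe]; norm_num
  rcases lt_or_ge t ((k : ℚ) + 1 / 4) with q1 | q1
  · have hc := hchi 0 (by push_cast; linarith) (by push_cast; linarith)
    simp only [chi, hc]
    obtain rfl | rfl | rfl | rfl := zmod_four j
    · rw [cum_jumps_piece N 0 t (2 * k) (by omega) (by linarith) (by rw [b0]; exact q1), hpe]
      simp [firstSign]
    · rw [cum_jumps_piece N 1 t (2 * (k - 1) + 1) (by omega)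
        (by rw [d1, Nat.cast_sub hk1]; push_cast; linarith)
        (by rw [show 2 * (k - 1) + 1 + 1 = 2 * k by omega, a1]; exact q1), hpo]
      simp (config := { decide := true }) [firstSign, show (1 : ZMod 4).val = 1 from rfl]
    · rw [cum_jumps_piece N 2 t (2 * k) (by omega) (by rw [a2]; linarith) (by rw [b2]; linarith),
        hpe]
      simp (config := { decide := true }) [firstSign, show (2 : ZMod 4).val = 2 from rfl]
    · rw [cum_jumps_piece N 3 t (2 * k) (by omega) (by rw [a3]; linarith) (by rw [b3]; linarith),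
        hpe]
      simp (config := { decide := true }) [firstSign, show (3 : ZMod 4).val = 3 from rfl]
  have hk2 : k + 2 ≤ N := hN2 (by linarith)
  rw [if_neg (by omega : k + 1 ≠ N)] at c1 c3
  push_cast at c0 c1 c2 c3
  have hb0 : ∀ (c : ℝ), firstSign 0 = c → cum (jumps N 0) t = -c := fun c hc => by
    rw [cum_jumps_piece N 0 t (2 * k + 1) (by omega) (by rw [b0]; linarith)
      (by rw [show 2 * k + 1 + 1 = 2 * (k + 1) by ring, c0]; linarith), hpo, hc]
    ring
  rcases lt_or_ge t ((k : ℚ) + 1 / 2) with q2 | q2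
  · have hc := hchi 1 (by push_cast; linarith) (by push_cast; linarith)
    simp only [chi, hc]
    obtain rfl | rfl | rfl | rfl := zmod_four j
    · rw [hb0 1 rfl]; simp (config := { decide := true })
    · rw [cum_jumps_piece N 1 t (2 * k) (by omega) (by rw [a1]; linarith) (by rw [b1]; linarith),
        hpe]
      simp (config := { decide := true }) [firstSign, show (1 : ZMod 4).val = 1 from rfl]
    · rw [cum_jumps_piece N 2 t (2 * k) (by omega) (by rw [a2]; linarith) (by rw [b2]; linarith),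
        hpe]
      simp (config := { decide := true }) [firstSign, show (2 : ZMod 4).val = 2 from rfl]
    · rw [cum_jumps_piece N 3 t (2 * k) (by omega) (by rw [a3]; linarith) (by rw [b3]; linarith),
        hpe]
      simp (config := { decide := true }) [firstSign, show (3 : ZMod 4).val = 3 from rfl]
  have hb1 : ∀ (c : ℝ), firstSign 1 = c → cum (jumps N 1) t = -c := fun c hc => by
    rw [cum_jumps_piece N 1 t (2 * k + 1) (by omega) (by rw [b1]; linarith)
      (by rw [show 2 * k + 1 + 1 = 2 * (k + 1) by ring, c1]; linarith), hpo, hc]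
    ring
  rcases lt_or_ge t ((k : ℚ) + 3 / 4) with q3 | q3
  · have hc := hchi 2 (by push_cast; linarith) (by push_cast; linarith)
    simp only [chi, hc]
    obtain rfl | rfl | rfl | rfl := zmod_four j
    · rw [hb0 1 rfl]; simp (config := { decide := true })
    · rw [hb1 1 rfl]; simp (config := { decide := true })
    · rw [cum_jumps_piece N 2 t (2 * k + 1) (by omega) (by rw [b2]; linarith)
        (by rw [show 2 * k + 1 + 1 = 2 * (k + 1) by ring, c2]; linarith), hpo]
      simp (config := { decide := true }) [firstSign, show (2 : ZMod 4).val = 2 from rfl]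
    · rw [cum_jumps_piece N 3 t (2 * k) (by omega) (by rw [a3]; linarith) (by rw [b3]; linarith),
        hpe]
      simp (config := { decide := true }) [firstSign, show (3 : ZMod 4).val = 3 from rfl]
  · have hc := hchi 3 (by push_cast; linarith) (by push_cast; linarith)
    simp only [chi, hc]
    obtain rfl | rfl | rfl | rfl := zmod_four j
    · rw [hb0 1 rfl]; simp (config := { decide := true })
    · rw [hb1 1 rfl]; simp (config := { decide := true })
    · rw [cum_jumps_piece N 2 t (2 * (k + 1)) (by omega) (by rw [c2]; linarith)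
        (by rw [e2]; push_cast; linarith), hpe]
      simp (config := { decide := true }) [firstSign, show (2 : ZMod 4).val = 2 from rfl]
    · rw [cum_jumps_piece N 3 t (2 * k + 1) (by omega) (by rw [b3]; linarith)
        (by rw [show 2 * k + 1 + 1 = 2 * (k + 1) by ring, c3]; linarith), hpo]
      simp (config := { decide := true }) [firstSign, show (3 : ZMod 4).val = 3 from rfl]

/-- Jump vector of the summed cut-off signs along a word, in the last frame. -/
noncomputable def wordJumps (N : ℕ) : List (ZMod 4) → ℚ →₀ ℝ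
  | [] => 0
  | j :: w => Finsupp.mapDomain (shift (j + 2)) (wordJumps N w + jumps N j)

/-- Sum of the periodic signs along a word. -/
noncomputable def wordWalk : List (ZMod 4) → ℚ → ℝ
  | [], _ => 0
  | j :: w, t => wordWalk w (shift j t) + chi j (shift j t)

/-- The origin of the first frame seen in the last one. -/
def wordBack : List (ZMod 4) → ℚ
  | [] => 0
  | j :: w => shift (j + 2) (wordBack w)

lemma cum_wordJumps (N : ℕ) : ∀ (w : List (ZMod 4)) (t : ℚ), 1 + (w.length : ℚ) / 4 ≤ t →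
    t ≤ (N : ℚ) - 1 - (w.length : ℚ) / 4 → cum (wordJumps N w) t = wordWalk w t := by
  intro w
  induction w with
  | nil => intro t _ _; simp [wordJumps, cum, wordWalk]
  | cons j w ih =>
    intro t h1 h2
    simp only [List.length_cons, Nat.cast_add, Nat.cast_one] at h1 h2
    have := shift_near j t
    have hl : (0 : ℚ) ≤ (w.length : ℚ) := by positivity
    simp only [wordJumps, wordWalk, cum_mapDomain, cum_add]
    rw [ih _ (by linarith) (by linarith), cum_jumps N j _ (by linarith) (by linarith)]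

lemma wordWalk_add_int : ∀ (w : List (ZMod 4)) (t : ℚ) (m : ℤ),
    wordWalk w (t + m) = wordWalk w t := by
  intro w
  induction w with
  | nil => intros; rfl
  | cons j w ih => intro t m; simp only [wordWalk, shift_add_int, ih, chi_add_int]

/-- Average over all words of length `u`. -/
noncomputable def wordAvg : ℕ → (List (ZMod 4) → ℝ) → ℝ
  | 0, f => f []
  | u + 1, f => (∑ j, wordAvg u fun w => f (j :: w)) / 4

lemma wordAvg_mono : ∀ (u : ℕ) (f g : List (ZMod 4) → ℝ), (∀ w, w.length = u → f w ≤ g w) →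
    wordAvg u f ≤ wordAvg u g := by
  intro u
  induction u with
  | zero => intro f g h; exact h [] rfl
  | succ u ih =>
    intro f g h
    refine div_le_div_of_nonneg_right (sum_le_sum fun j _ => ih _ _ fun w hw => h _ ?_) (by norm_num)
    simp [hw]

lemma wordAvg_congr (u : ℕ) (f g : List (ZMod 4) → ℝ) (h : ∀ w, w.length = u → f w = g w) :
    wordAvg u f = wordAvg u g :=
  le_antisymm (wordAvg_mono u f g fun w hw => (h w hw).le)
    (wordAvg_mono u g f fun w hw => (h w hw).ge)

lemma wordAvg_add : ∀ (u : ℕ) (f g : List (ZMod 4) → ℝ),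
    wordAvg u (fun w => f w + g w) = wordAvg u f + wordAvg u g := by
  intro u
  induction u with
  | zero => intros; rfl
  | succ u ih => intro f g; simp only [wordAvg, ih, sum_add_distrib, add_div]

lemma wordAvg_mul_left : ∀ (u : ℕ) (c : ℝ) (f : List (ZMod 4) → ℝ),
    wordAvg u (fun w => c * f w) = c * wordAvg u f := by
  intro u
  induction u with
  | zero => intros; rfl
  | succ u ih => intro c f; simp only [wordAvg, ih, ← mul_sum, mul_div_assoc]

lemma wordAvg_const : ∀ (u : ℕ) (c : ℝ), wordAvg u (fun _ => c) = c := by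
  intro u
  induction u with
  | zero => intros; rfl
  | succ u ih => intro c; simp [wordAvg, ih, ZMod.card]

lemma wordAvg_swap (u : ℕ) (f : List (ZMod 4) → ℝ) :
    wordAvg (u + 1) f = wordAvg u (fun w => (∑ j, f (j :: w)) / 4) := by
  have h : ∀ s : Finset (ZMod 4), ∑ j ∈ s, wordAvg u (fun w => f (j :: w)) =
      wordAvg u (fun w => ∑ j ∈ s, f (j :: w)) := by
    intro s
    induction s using Finset.induction with
    | empty => simp [wordAvg_const]
    | insert a s ha ih => simp only [sum_insert ha, wordAvg_add, ih]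
  simp only [div_eq_inv_mul, wordAvg_mul_left, ← h, wordAvg]

lemma wordAvg_bound : ∀ (u : ℕ) (f : List (ZMod 4) → ℝ),
    ∃ B : ℝ, ∀ w, w.length = u → f w ≤ B := by
  intro u
  induction u with
  | zero => intro f; exact ⟨f [], fun w hw => by simp [List.length_eq_zero_iff.1 hw]⟩
  | succ u ih =>
    intro f
    choose B hB using fun j => ih (fun w => f (j :: w))
    refine ⟨∑ j, |B j|, fun w hw => ?_⟩
    rcases w with - | ⟨j, w⟩
    · simp at hw
    · refine (hB j w (by simpa using hw)).trans ((le_abs_self _).trans ?_)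
      exact single_le_sum (f := fun j => |B j|) (fun j _ => abs_nonneg _) (mem_univ j)

lemma avg_walk : ∀ (u : ℕ) (z : ℚ), wordAvg u (fun w => wordWalk w z) = u / 2 := by
  intro u
  induction u with
  | zero => intro z; simp [wordAvg, wordWalk]
  | succ u ih =>
    intro z
    simp only [wordAvg, wordWalk, wordAvg_add, ih, wordAvg_const, sum_add_distrib, chi_shift,
      sum_neg_distrib, sum_const, card_univ, ZMod.card]
    have := Equiv.sum_comp (Equiv.addRight (2 : ZMod 4)) (fun j => chi j z)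
    simp only [Equiv.coe_addRight, sum_chi] at this
    rw [this]
    push_cast
    ring

lemma avg_back : ∀ u : ℕ, wordAvg u (fun w => wordWalk w (wordBack w)) = -(u / 2 : ℝ) := by
  intro u
  induction u with
  | zero => simp [wordAvg, wordWalk]
  | succ u ih =>
    rw [wordAvg_swap]
    have e : ∀ w : List (ZMod 4), (∑ j, wordWalk (j :: w) (wordBack (j :: w))) / 4 =
        wordWalk w (wordBack w) + (-1 / 2) := by
      intro w
      simp only [wordWalk, wordBack, shift_shift', sum_add_distrib, sum_chi, sum_const, card_univ,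
        ZMod.card]
      norm_num
      ring
    simp only [e, wordAvg_add, ih, wordAvg_const]
    push_cast
    ring

/-- The drift: the two readings of the walk differ by at least `n` on average. -/
theorem drift (n : ℕ) :
    (n : ℝ) ≤ wordAvg n (fun w => |wordWalk w (wordBack w) - wordWalk w 0|) := by
  have h : wordAvg n (fun w => wordWalk w 0 + -1 * wordWalk w (wordBack w)) = n := by
    rw [wordAvg_add, avg_walk, wordAvg_mul_left, avg_back]; ring
  refine h.symm.le.trans (wordAvg_mono n _ _ fun w _ => ?_)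
  have := neg_le_abs (wordWalk w (wordBack w) - wordWalk w 0)
  linarith

/-- The break points of the sign function `j`. -/
noncomputable def brks (N : ℕ) (j : ZMod 4) : Finset ℚ := (range (2 * N + 1)).image (brk N j)

lemma brk_mem (N : ℕ) (j : ZMod 4) {i : ℕ} (hi : i ≤ 2 * N) : brk N j i ∈ brks N j :=
  mem_image_of_mem _ (mem_range.2 (by omega))

lemma jumps_support (N : ℕ) (j : ZMod 4) : (jumps N j).support ⊆ brks N j := by
  intro a ha
  by_contra hn
  refine Finsupp.mem_support_iff.1 ha ?_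
  have h : ∀ i, i ≤ 2 * N → Finsupp.single (brk N j i) (1 : ℝ) a = 0 := fun i hi =>
    Finsupp.single_eq_of_ne fun h => hn (by rw [h]; exact brk_mem N j hi)
  simp only [jumps, Finsupp.smul_apply, Finsupp.finset_sum_apply, Finsupp.sub_apply, smul_eq_mul]
  refine mul_eq_zero_of_right _ (sum_eq_zero fun i hi => ?_)
  rw [h i (mem_range.1 hi).le, h (i + 1) (mem_range.1 hi)]
  simp

/-- All sites used by words of length at most `u`. -/
noncomputable def sites (N : ℕ) : ℕ → Finset ℚ
  | 0 => ∅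
  | u + 1 => sites N u ∪ univ.biUnion fun j : ZMod 4 =>
      (sites N u ∪ brks N j).image (shift (j + 2))

lemma sites_mono (N : ℕ) {u v : ℕ} (h : u ≤ v) : sites N u ⊆ sites N v := by
  induction h with
  | refl => exact subset_rfl
  | step _ ih => exact ih.trans subset_union_left

lemma mem_sites_succ (N u : ℕ) (j : ZMod 4) (a : ℚ)
    (h : a ∈ sites N u ∪ brks N j) : shift (j + 2) a ∈ sites N (u + 1) :=
  mem_union_right _ (mem_biUnion.2 ⟨j, mem_univ _, mem_image_of_mem _ h⟩)

lemma wordJumps_support (N : ℕ) : ∀ w : List (ZMod 4),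
    (wordJumps N w).support ⊆ sites N w.length := by
  classical
  intro w
  induction w with
  | nil => simp [wordJumps]
  | cons j w ih =>
    intro a ha
    obtain ⟨b, hb, rfl⟩ := mem_image.1 (Finsupp.mapDomain_support ha)
    exact mem_sites_succ N _ j b (union_subset_union ih (jumps_support N j) (Finsupp.support_add hb))

/-- Total mass of a jump vector. -/
noncomputable def total (D : ℚ →₀ ℝ) : ℝ := D.sum fun _ d => d

lemma total_wordJumps (N : ℕ) : ∀ w : List (ZMod 4), total (wordJumps N w) = 0 := by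
  intro w
  induction w with
  | nil => simp [wordJumps, total]
  | cons j w ih =>
    have hj : total (jumps N j) = 0 := by
      let L : (ℚ →₀ ℝ) →ₗ[ℝ] ℝ := Finsupp.lsum ℝ fun _ => LinearMap.id
      show L (jumps N j) = 0
      simp only [jumps, map_smul, map_sum, map_sub, L, Finsupp.lsum_single]
      simp
    simp only [total, wordJumps] at ih hj ⊢
    rw [Finsupp.sum_mapDomain_index (fun _ => rfl) (fun _ _ _ => rfl),
      Finsupp.sum_add_index' (fun _ => rfl) (fun _ _ _ => rfl), ih, hj, add_zero]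

end Vale.Agent.P125
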