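import Mathlib

/-!
# Markov type and uniform smoothness (basic definitions)
-/

namespace Vale.Agent.P125

/-- `π, P` is a stationary reversible Markov chain on the states `Fin N`: `π` is a probability
vector, `P` is a row-stochastic matrix and detailed balance holds. -/
def IsReversibleChain {N : ℕ} (π : Fin N → ℝ) (P : Matrix (Fin N) (Fin N) ℝ) : Prop :=
  (∀ i, 0 ≤ π i) ∧ ∑ i, π i = 1 ∧ (∀ i j, 0 ≤ P i j) ∧ (∀ i, ∑ j, P i j = 1) ∧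
    ∀ i j, π i * P i j = π j * P j i

/-- Markov type `p`: one constant `K` works in `E ‖f Z_t - f Z_0‖^p ≤ K^p t E ‖f Z_1 - f Z_0‖^p`
for all finite stationary reversible chains, all maps `f` of the states and all times `t ≥ 1`. -/
def HasMarkovType (p : ℝ) (X : Type*) [NormedAddCommGroup X] [NormedSpace ℝ X] : Prop :=
  ∃ K : ℝ, 0 ≤ K ∧ ∀ (N : ℕ) (π : Fin N → ℝ) (P : Matrix (Fin N) (Fin N) ℝ) (f : Fin N → X),
    IsReversibleChain π P → ∀ t : ℕ, 1 ≤ t →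
      ∑ i, ∑ j, π i * (P ^ t) i j * ‖f j - f i‖ ^ p ≤
        K ^ p * t * ∑ i, ∑ j, π i * P i j * ‖f j - f i‖ ^ p

/-- A seminorm `μ` is uniformly smooth: `ρ(τ)/τ → 0` as `τ → 0⁺` for its modulus of smoothness
`ρ(τ) = sup {(μ (x + τ y) + μ (x - τ y))/2 - 1 : μ x = μ y = 1}`. -/
def IsUniformlySmooth {X : Type*} [NormedAddCommGroup X] [NormedSpace ℝ X]
    (μ : Seminorm ℝ X) : Prop :=
  ∀ ε : ℝ, 0 < ε → ∃ τ₀ : ℝ, 0 < τ₀ ∧ ∀ τ : ℝ, 0 < τ → τ ≤ τ₀ → ∀ x y : X,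
    μ x = 1 → μ y = 1 → (μ (x + τ • y) + μ (x - τ • y)) / 2 - 1 ≤ ε * τ

/-- The space has an equivalent uniformly smooth norm. -/
def HasUniformlySmoothNorm (X : Type*) [NormedAddCommGroup X] [NormedSpace ℝ X] : Prop :=
  ∃ μ : Seminorm ℝ X, (∃ a b : ℝ, 0 < a ∧ 0 < b ∧ ∀ x, a * ‖x‖ ≤ μ x ∧ μ x ≤ b * ‖x‖) ∧
    IsUniformlySmooth μ

end Vale.Agent.P125
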