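import Mathlib
import Vale.Agent.P125.Def

/-!
# Renorming from flat Rademacher trees

`treeSup k x` is the largest average of `‖x + S‖` over dyadic trees of depth `k` with increments
in the unit ball. If `treeSup n 0 ≤ ε n` is possible for every `ε`, a multiscale infimal
convolution of Cesàro averages of `treeSup` gives an equivalent uniformly smooth norm.
-/

namespace Vale.Agent.P125

open Finset Filter Topology

variable {X : Type*} [NormedAddCommGroup X] [NormedSpace ℝ X]

/-- Largest dyadic tree average of depth `k` started at `x`, increments in the unit ball. -/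
noncomputable def treeSup : ℕ → X → ℝ
  | 0, x => ‖x‖
  | k + 1, x => ⨆ y : Metric.closedBall (0 : X) 1,
      (treeSup k (x + (y : X)) + treeSup k (x - (y : X))) / 2

instance : Nonempty (Metric.closedBall (0 : X) 1) :=
  ⟨⟨0, Metric.mem_closedBall_self zero_le_one⟩⟩

lemma treeSup_props (k : ℕ) :
    (∀ x : X, ‖x‖ ≤ treeSup k x) ∧ (∀ x : X, treeSup k x ≤ ‖x‖ + k) ∧
      (∀ x v : X, treeSup k (x + v) ≤ treeSup k x + ‖v‖) ∧
      (∀ x : X, treeSup k (-x) ≤ treeSup k x) ∧
      ∀ (x x' : X) (a b : ℝ), 0 ≤ a → 0 ≤ b → a + b = 1 →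
        treeSup k (a • x + b • x') ≤ a * treeSup k x + b * treeSup k x' := by
  induction k with
  | zero =>
    refine ⟨fun x => le_rfl, fun x => by simp [treeSup], fun x v => norm_add_le x v,
      fun x => by simp [treeSup], fun x x' a b ha hb _ => ?_⟩
    simp only [treeSup]
    refine (norm_add_le _ _).trans ?_
    simp [norm_smul, abs_of_nonneg, ha, hb]
  | succ k ih =>
    obtain ⟨h1, h2, h3, h4, h5⟩ := ih
    have hy : ∀ y : Metric.closedBall (0 : X) 1, ‖(y : X)‖ ≤ 1 := fun y =>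
      mem_closedBall_zero_iff.1 y.2
    have hb : ∀ x : X, ∀ y : Metric.closedBall (0 : X) 1,
        (treeSup k (x + (y : X)) + treeSup k (x - (y : X))) / 2 ≤ ‖x‖ + (k + 1 : ℕ) := by
      intro x y
      have := h2 (x + (y : X))
      have := h2 (x - (y : X))
      have := norm_add_le x (y : X)
      have := norm_sub_le x (y : X)
      have := hy y
      push_cast
      linarith
    have hle : ∀ x : X, ∀ y : Metric.closedBall (0 : X) 1,
        (treeSup k (x + (y : X)) + treeSup k (x - (y : X))) / 2 ≤ treeSup (k + 1) x :=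
      fun x y => le_ciSup (f := fun y : Metric.closedBall (0 : X) 1 =>
        (treeSup k (x + (y : X)) + treeSup k (x - (y : X))) / 2)
        ⟨_, Set.forall_mem_range.2 (hb x)⟩ y
    refine ⟨fun x => ?_, fun x => ciSup_le (hb x), fun x v => ciSup_le fun y => ?_,
      fun x => ciSup_le fun y => ?_, fun x x' a b ha hab hs => ciSup_le fun y => ?_⟩
    · have := hle x ⟨0, Metric.mem_closedBall_self zero_le_one⟩
      simp only [add_zero, sub_zero] at this
      linarith [h1 x]
    · have e1 := h3 (x + (y : X)) v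
      have e2 := h3 (x - (y : X)) v
      rw [add_right_comm] at e1
      rw [sub_add_eq_add_sub] at e2
      linarith [hle x y]
    · have e1 := h4 (x - (y : X))
      have e2 := h4 (x + (y : X))
      rw [neg_sub'] at e1
      rw [neg_add'] at e2
      rw [sub_neg_eq_add] at e1
      linarith [hle x y]
    · have e : ∀ z : X, (a • x + b • x') + z = a • (x + z) + b • (x' + z) := by
        intro z
        rw [smul_add, smul_add, add_add_add_comm, ← add_smul, hs, one_smul]
      have e1 := h5 (x + (y : X)) (x' + (y : X)) a b ha hab hs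
      have e2 := h5 (x + -(y : X)) (x' + -(y : X)) a b ha hab hs
      rw [← e] at e1 e2
      simp only [← sub_eq_add_neg] at e2
      have f1 := mul_le_mul_of_nonneg_left (hle x y) ha
      have f2 := mul_le_mul_of_nonneg_left (hle x' y) hab
      linarith

lemma treeSup_step (k : ℕ) (x y : X) (hy : ‖y‖ ≤ 1) :
    treeSup k (x + y) + treeSup k (x - y) ≤ 2 * treeSup (k + 1) x := by
  obtain ⟨-, h2, -, -, -⟩ := treeSup_props (X := X) k
  have h := le_ciSup (f := fun y : Metric.closedBall (0 : X) 1 =>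
      (treeSup k (x + (y : X)) + treeSup k (x - (y : X))) / 2)
      ⟨‖x‖ + k + 1, by
        rintro _ ⟨z, rfl⟩
        have := h2 (x + (z : X))
        have := h2 (x - (z : X))
        have := norm_add_le x (z : X)
        have := norm_sub_le x (z : X)
        have := mem_closedBall_zero_iff.1 z.2
        simp only
        linarith⟩ ⟨y, mem_closedBall_zero_iff.2 hy⟩
  simp only [treeSup] at h ⊢
  linarith

/-- A smoothing of the norm at scale `h`: rescaled Cesàro average of `treeSup`. -/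
noncomputable def smoothAt (n : ℕ) (h : ℝ) (x : X) : ℝ :=
  h * ((∑ k ∈ range n, treeSup k (h⁻¹ • x)) / n)

/-- The properties of a smoothing of the norm at scale `h` with slack `ε`. -/
structure SmoothPiece (F : X → ℝ) (c0 ε h : ℝ) : Prop where
  ge_norm : ∀ x, ‖x‖ ≤ F x
  at_zero : F 0 ≤ c0
  lip : ∀ x v, F (x + v) ≤ F x + ‖v‖
  even : ∀ x, F (-x) ≤ F x
  conv : ∀ (x x' : X) (a b : ℝ), 0 ≤ a → 0 ≤ b → a + b = 1 →
    F (a • x + b • x') ≤ a * F x + b * F x'
  smooth : ∀ x y, ‖y‖ ≤ h → F (x + y) + F (x - y) ≤ 2 * F x + 2 * ε * h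

lemma smoothAt_piece {n : ℕ} (hn : 1 ≤ n) {h ε : ℝ} (hh : 0 < h)
    (hT : treeSup n (0 : X) ≤ ε * n) :
    SmoothPiece (smoothAt (X := X) n h) (n * h) ε h := by
  have hn' : (0 : ℝ) < n := by exact_mod_cast hn
  have hP := fun k => treeSup_props (X := X) k
  refine ⟨fun x => ?_, ?_, fun x v => ?_, fun x => ?_, fun x x' a b ha hb hab => ?_,
    fun x y hy => ?_⟩
  · have h1 : (n : ℝ) * ‖h⁻¹ • x‖ ≤ ∑ k ∈ range n, treeSup k (h⁻¹ • x) := by
      have := sum_le_sum (s := range n) (fun k _ => (hP k).1 (h⁻¹ • x))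
      simpa using this
    rw [norm_smul, norm_inv, Real.norm_of_nonneg hh.le] at h1
    unfold smoothAt
    rw [mul_div_assoc', le_div_iff₀ hn']
    have := mul_le_mul_of_nonneg_left h1 hh.le
    field_simp at this ⊢
    linarith
  · have h1 : ∑ k ∈ range n, treeSup k (0 : X) ≤ (n : ℝ) * n := by
      have := sum_le_sum (s := range n) (f := fun k => treeSup k (0 : X))
        (g := fun _ => (n : ℝ)) (fun k hk => by
        have := (hP k).2.1 0
        rw [norm_zero, zero_add] at this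
        exact this.trans (by exact_mod_cast (mem_range.1 hk).le))
      simpa using this
    unfold smoothAt
    rw [smul_zero, mul_comm (n : ℝ) h]
    exact mul_le_mul_of_nonneg_left ((div_le_iff₀ hn').2 h1) hh.le
  · have h1 : ∑ k ∈ range n, treeSup k (h⁻¹ • (x + v)) ≤
        (∑ k ∈ range n, treeSup k (h⁻¹ • x)) + n * (h⁻¹ * ‖v‖) := by
      have := sum_le_sum (s := range n) (fun k _ => (hP k).2.2.1 (h⁻¹ • x) (h⁻¹ • v))
      rw [sum_add_distrib, sum_const, card_range, nsmul_eq_mul] at this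
      simpa [smul_add, norm_smul, abs_of_pos hh] using this
    unfold smoothAt
    have := mul_le_mul_of_nonneg_left (div_le_div_of_nonneg_right h1 hn'.le) hh.le
    field_simp at this ⊢
    linarith
  · unfold smoothAt
    refine mul_le_mul_of_nonneg_left (div_le_div_of_nonneg_right ?_ hn'.le) hh.le
    refine sum_le_sum fun k _ => ?_
    rw [smul_neg]
    exact (hP k).2.2.2.1 _
  · have h1 : ∑ k ∈ range n, treeSup k (h⁻¹ • (a • x + b • x')) ≤
        a * (∑ k ∈ range n, treeSup k (h⁻¹ • x)) + b * ∑ k ∈ range n, treeSup k (h⁻¹ • x') := by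
      rw [mul_sum, mul_sum, ← sum_add_distrib]
      refine sum_le_sum fun k _ => ?_
      rw [smul_add, smul_comm h⁻¹ a x, smul_comm h⁻¹ b x']
      exact (hP k).2.2.2.2 _ _ a b ha hb hab
    unfold smoothAt
    have := mul_le_mul_of_nonneg_left (div_le_div_of_nonneg_right h1 hn'.le) hh.le
    refine this.trans (le_of_eq ?_)
    ring
  · set z := h⁻¹ • x
    set u := h⁻¹ • y with hu
    have hu1 : ‖u‖ ≤ 1 := by
      rw [hu, norm_smul, norm_inv, Real.norm_of_nonneg hh.le, inv_mul_le_iff₀ hh]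
      simpa using hy
    have h1 : ∑ k ∈ range n, treeSup k (z + u) + ∑ k ∈ range n, treeSup k (z - u) ≤
        2 * ∑ k ∈ range n, treeSup (k + 1) z := by
      rw [← sum_add_distrib, mul_sum]
      exact sum_le_sum fun k _ => treeSup_step k z u hu1
    have h2 : ∑ k ∈ range n, treeSup (k + 1) z + treeSup 0 z =
        ∑ k ∈ range n, treeSup k z + treeSup n z := by
      rw [← sum_range_succ' (fun k => treeSup k z), sum_range_succ]
    have h3 : treeSup n z ≤ ε * n + ‖z‖ := by
      have := (hP n).2.2.1 0 z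
      rw [zero_add] at this
      linarith
    have h4 : treeSup 0 z = ‖z‖ := rfl
    unfold smoothAt
    rw [smul_add, smul_sub]
    calc h * ((∑ k ∈ range n, treeSup k (z + u)) / n) +
          h * ((∑ k ∈ range n, treeSup k (z - u)) / n)
        = h * ((∑ k ∈ range n, treeSup k (z + u) + ∑ k ∈ range n, treeSup k (z - u)) / n) := by
          ring
      _ ≤ h * ((2 * ∑ k ∈ range n, treeSup k z + 2 * ε * n) / n) :=
          mul_le_mul_of_nonneg_left (div_le_div_of_nonneg_right (by linarith) hn'.le) hh.le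
      _ = _ := by
          generalize (∑ k ∈ range n, treeSup k z) = S
          field_simp

/-- A uniformly smooth convex function trapped between `‖x‖` and `‖x‖ + 1/2`. -/
lemma exists_smooth_function (hT : ∀ ε : ℝ, 0 < ε → ∃ n : ℕ, 1 ≤ n ∧ treeSup n (0 : X) ≤ ε * n) :
    ∃ U : X → ℝ, (∀ x, ‖x‖ ≤ U x) ∧ (∀ x, U x ≤ ‖x‖ + 1 / 2) ∧
      (∀ x v, U (x + v) ≤ U x + ‖v‖) ∧ (∀ x, U (-x) ≤ U x) ∧
      (∀ (x x' : X) (a b : ℝ), 0 ≤ a → 0 ≤ b → a + b = 1 →
        U (a • x + b • x') ≤ a * U x + b * U x') ∧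
      ∀ ε : ℝ, 0 < ε → ∃ τ : ℝ, 0 < τ ∧ ∀ x y, ‖y‖ ≤ τ →
        U (x + y) + U (x - y) ≤ 2 * U x + ε * ‖y‖ := by
  classical
  choose n hn1 hn2 using fun i : ℕ => hT ((1 / 2 : ℝ) ^ i) (by positivity)
  let h : ℕ × ℕ → ℝ := fun i => (1 / 2 : ℝ) ^ (n i.1 + i.1 + 4 + i.2)
  let F : ℕ × ℕ → X → ℝ := fun i => smoothAt (n i.1) (h i)
  have hF : ∀ i, SmoothPiece (F i) (n i.1 * h i) ((1 / 2 : ℝ) ^ i.1) (h i) := fun i =>
    smoothAt_piece (hn1 _) (by positivity) (hn2 _)
  have hF0 : ∀ i x, 0 ≤ F i x := fun i x => (norm_nonneg x).trans ((hF i).ge_norm x)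
  have hsmall : ∀ i, F i 0 ≤ (1 / 16 : ℝ) * ((1 / 2) ^ i.1 * (1 / 2) ^ i.2) := by
    intro i
    refine (hF i).at_zero.trans ?_
    simp only [h, pow_add]
    have h2 : (n i.1 : ℝ) * (1 / 2) ^ n i.1 ≤ 1 := by
      rw [one_div, inv_pow, ← div_eq_mul_inv, div_le_one (by positivity)]
      exact_mod_cast (Nat.lt_two_pow_self).le
    calc (n i.1 : ℝ) * ((1 / 2) ^ n i.1 * (1 / 2) ^ i.1 * (1 / 2) ^ 4 * (1 / 2) ^ i.2)
        = (n i.1 * (1 / 2) ^ n i.1) * ((1 / 16 : ℝ) * ((1 / 2) ^ i.1 * (1 / 2) ^ i.2)) := by ring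
      _ ≤ 1 * ((1 / 16 : ℝ) * ((1 / 2) ^ i.1 * (1 / 2) ^ i.2)) :=
          mul_le_mul_of_nonneg_right h2 (by positivity)
      _ = _ := one_mul _
  have hgeo : HasSum (fun i : ℕ × ℕ => (1 / 16 : ℝ) * ((1 / 2) ^ i.1 * (1 / 2) ^ i.2))
      ((1 / 16) * (2 * 2)) := by
    have hs := summable_geometric_two
    exact ((hasSum_geometric_two.mul hasSum_geometric_two
      (hs.mul_of_nonneg hs (fun _ => by positivity) (fun _ => by positivity)))).mul_left _
  have hsum0 : Summable fun i => F i 0 :=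
    Summable.of_nonneg_of_le (fun i => hF0 i 0) hsmall hgeo.summable
  have htot0 : ∑' i, F i 0 ≤ 1 / 2 := by
    have h1 := hsum0.tsum_le_tsum hsmall hgeo.summable
    rw [hgeo.tsum_eq] at h1
    linarith
  have hFle : ∀ i v, F i v ≤ F i 0 + ‖v‖ := fun i v => by simpa using (hF i).lip 0 v
  have hnormsum : ∀ z : (ℕ × ℕ) →₀ X, Summable fun i => ‖z i‖ := fun z =>
    summable_of_hasFiniteSupport (z.support.finite_toSet.subset fun i hi => by simpa using hi)
  have hsum : ∀ z : (ℕ × ℕ) →₀ X, Summable fun i => F i (z i) := fun z =>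
    Summable.of_nonneg_of_le (fun i => hF0 i _) (fun i => hFle i _) (hsum0.add (hnormsum z))
  let tot : ((ℕ × ℕ) →₀ X) →ₗ[ℝ] X := Finsupp.lsum ℝ fun _ => LinearMap.id
  have htot : ∀ z, tot z = ∑ i ∈ z.support, z i := fun z => rfl
  have htots : ∀ i v, tot (Finsupp.single i v) = v := fun i v => by simp [tot]
  let U : X → ℝ := fun x => ⨅ z : {z : (ℕ × ℕ) →₀ X // tot z = x}, ∑' i, F i (z.1 i)
  haveI : ∀ x : X, Nonempty {z : (ℕ × ℕ) →₀ X // tot z = x} :=
    fun x => ⟨⟨Finsupp.single (0, 0) x, htots _ _⟩⟩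
  have hbdd : ∀ x : X, BddBelow (Set.range
      fun z : {z : (ℕ × ℕ) →₀ X // tot z = x} => ∑' i, F i (z.1 i)) := fun x =>
    ⟨0, Set.forall_mem_range.2 fun z => tsum_nonneg fun i => hF0 i _⟩
  have hUle : ∀ (x : X) (z : (ℕ × ℕ) →₀ X), tot z = x → U x ≤ ∑' i, F i (z i) :=
    fun x z hz => ciInf_le (hbdd x) ⟨z, hz⟩
  have hnsingle : ∀ i₀ : ℕ × ℕ, ∀ v : X,
      ∑' i, ‖Finsupp.single i₀ v i‖ = ‖v‖ := by
    intro i₀ v
    rw [tsum_eq_single i₀ fun j hj => by simp [hj.symm]]
    simp
  refine ⟨U, fun x => le_ciInf fun z => ?_, fun x => ?_, fun x v => ?_, fun x => ?_,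
    fun x x' a b ha hb hab => ?_, fun ε hε => ?_⟩
  · calc ‖x‖ = ‖∑ i ∈ z.1.support, z.1 i‖ := by rw [← htot, z.2]
      _ ≤ ∑ i ∈ z.1.support, ‖z.1 i‖ := norm_sum_le _ _
      _ ≤ ∑ i ∈ z.1.support, F i (z.1 i) := sum_le_sum fun i _ => (hF i).ge_norm _
      _ ≤ _ := (hsum z.1).sum_le_tsum _ fun i _ => hF0 i _
  · refine (hUle x _ (htots (0, 0) x)).trans ?_
    refine ((hsum _).tsum_le_tsum (fun i => hFle i _) (hsum0.add (hnormsum _))).trans ?_
    rw [hsum0.tsum_add (hnormsum _), hnsingle]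
    linarith
  · rw [← sub_le_iff_le_add]
    refine le_ciInf fun z => ?_
    rw [sub_le_iff_le_add]
    refine (hUle (x + v) (z.1 + Finsupp.single (0, 0) v) ?_).trans ?_
    · rw [map_add, htots, z.2]
    · refine ((hsum _).tsum_le_tsum (fun i => by rw [Finsupp.add_apply]; exact (hF i).lip _ _)
        ((hsum z.1).add (hnormsum (Finsupp.single (0, 0) v)))).trans ?_
      rw [(hsum z.1).tsum_add (hnormsum _), hnsingle]
  · refine le_ciInf fun z => (hUle (-x) (-z.1) (by rw [map_neg, z.2])).trans ?_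
    exact (hsum _).tsum_le_tsum (fun i => by rw [Finsupp.neg_apply]; exact (hF i).even _) (hsum _)
  · suffices hkey : ∀ z : {z : (ℕ × ℕ) →₀ X // tot z = x}, ∀ z' : {z : (ℕ × ℕ) →₀ X // tot z = x'},
        U (a • x + b • x') ≤ a * (∑' i, F i (z.1 i)) + b * ∑' i, F i (z'.1 i) by
      have e1 : ∀ z' : {z : (ℕ × ℕ) →₀ X // tot z = x'},
          U (a • x + b • x') ≤ a * U x + b * ∑' i, F i (z'.1 i) := by
        intro z'
        simp only [U]
        rw [Real.mul_iInf_of_nonneg ha, ← sub_le_iff_le_add]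
        exact le_ciInf fun z => sub_le_iff_le_add.2 (hkey z z')
      simp only [U] at e1 ⊢
      rw [Real.mul_iInf_of_nonneg hb, ← sub_le_iff_le_add']
      exact le_ciInf fun z' => sub_le_iff_le_add'.2 (e1 z')
    intro z z'
    refine (hUle _ (a • z.1 + b • z'.1) (by rw [map_add, map_smul, map_smul, z.2, z'.2])).trans ?_
    refine ((hsum _).tsum_le_tsum (fun i => by
      rw [Finsupp.add_apply, Finsupp.smul_apply, Finsupp.smul_apply]
      exact (hF i).conv _ _ a b ha hb hab)
      (((hsum z.1).mul_left a).add ((hsum z'.1).mul_left b))).trans ?_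
    rw [((hsum z.1).mul_left a).tsum_add ((hsum z'.1).mul_left b), tsum_mul_left, tsum_mul_left]
  · obtain ⟨i, hi⟩ := exists_pow_lt_of_lt_one (show (0 : ℝ) < ε / 4 by positivity)
      (show (1 / 2 : ℝ) < 1 by norm_num)
    refine ⟨h (i, 0), by positivity, fun x y hy => ?_⟩
    rcases eq_or_ne y 0 with rfl | hy0
    · simp [two_mul]
    have hyp : 0 < ‖y‖ := norm_pos_iff.2 hy0
    obtain ⟨l, hl1, hl2⟩ := exists_nat_pow_near
      (show 1 ≤ h (i, 0) / ‖y‖ by rw [le_div_iff₀ hyp, one_mul]; exact hy)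
      (show (1 : ℝ) < 2 by norm_num)
    rw [le_div_iff₀ hyp] at hl1
    rw [div_lt_iff₀ hyp] at hl2
    have hhl : h (i, l) * 2 ^ l = h (i, 0) := by
      simp only [h, pow_add, pow_zero, mul_one, one_div, inv_pow]
      field_simp
    have hle : ‖y‖ ≤ h (i, l) := by
      have h2 : (0 : ℝ) < 2 ^ l := by positivity
      rw [← hhl, mul_comm (h (i, l))] at hl1
      exact le_of_mul_le_mul_left hl1 h2
    have hge : h (i, l) < 2 * ‖y‖ := by
      have h2 : (0 : ℝ) < 2 ^ l := by positivity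
      rw [← hhl, pow_succ, mul_assoc, mul_comm (h (i, l))] at hl2
      exact lt_of_mul_lt_mul_left hl2 h2.le
    suffices hkey : ∀ z : {z : (ℕ × ℕ) →₀ X // tot z = x},
        (U (x + y) + U (x - y) - ε * ‖y‖) / 2 ≤ ∑' j, F j (z.1 j) by
      have := le_ciInf hkey
      simp only [U] at this ⊢
      linarith
    intro z
    have e1 := hUle (x + y) (z.1 + Finsupp.single (i, l) y) (by rw [map_add, htots, z.2])
    have e2 := hUle (x - y) (z.1 - Finsupp.single (i, l) y) (by rw [map_sub, htots, z.2])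
    have hite : Summable fun j : ℕ × ℕ =>
        if j = (i, l) then 2 * (1 / 2 : ℝ) ^ i * h (i, l) else 0 :=
      (hasSum_ite_eq (i, l) _).summable
    have e3 : ∑' j, F j ((z.1 + Finsupp.single (i, l) y) j) +
        ∑' j, F j ((z.1 - Finsupp.single (i, l) y) j) ≤
          2 * (∑' j, F j (z.1 j)) + 2 * (1 / 2 : ℝ) ^ i * h (i, l) := by
      rw [← (hsum _).tsum_add (hsum _), ← tsum_mul_left,
        ← tsum_ite_eq (i, l) (fun _ => 2 * (1 / 2 : ℝ) ^ i * h (i, l)),
        ← ((hsum z.1).mul_left 2).tsum_add hite]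
      refine ((hsum _).add (hsum _)).tsum_le_tsum (fun j => ?_) (((hsum z.1).mul_left 2).add hite)
      rcases eq_or_ne j (i, l) with rfl | hj
      · simpa using (hF (i, l)).smooth (z.1 (i, l)) y hle
      · simp [hj, hj.symm, two_mul]
    have e4 : 2 * (1 / 2 : ℝ) ^ i * h (i, l) ≤ ε * ‖y‖ := by
      calc 2 * (1 / 2 : ℝ) ^ i * h (i, l) ≤ 2 * (ε / 4) * (2 * ‖y‖) :=
            mul_le_mul (by linarith) hge.le (by positivity) (by positivity)
        _ = ε * ‖y‖ := by ring
    linarith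

/-- Flat trees give an equivalent uniformly smooth norm. -/
theorem renorm (hT : ∀ ε : ℝ, 0 < ε → ∃ n : ℕ, 1 ≤ n ∧ treeSup n (0 : X) ≤ ε * n) :
    HasUniformlySmoothNorm X := by
  obtain ⟨U, hU1, hU2, hU3, hU4, hU5, hU6⟩ := exists_smooth_function hT
  set C : Set X := {x | U x ≤ 1} with hC
  have hneg : ∀ x, U (-x) = U x := fun x =>
    le_antisymm (hU4 x) (by simpa using hU4 (-x))
  have hconv : Convex ℝ C := by
    intro x hx x' hx' a b ha hb hab
    simp only [hC, Set.mem_ofPred_eq] at hx hx' ⊢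
    refine (hU5 x x' a b ha hb hab).trans ?_
    have := mul_le_mul_of_nonneg_left hx ha
    have := mul_le_mul_of_nonneg_left hx' hb
    linarith
  have hbal : Balanced ℝ C := by
    rw [balanced_iff_smul_mem]
    intro a ha x hx
    rw [Real.norm_eq_abs, abs_le] at ha
    have hxn : -x ∈ C := by
      simp only [hC, Set.mem_ofPred_eq, hneg] at hx ⊢
      exact hx
    have := hconv hx hxn (show 0 ≤ (1 + a) / 2 by linarith) (show 0 ≤ (1 - a) / 2 by linarith)
      (by ring)
    rwa [smul_neg, ← sub_eq_add_neg, ← sub_smul, show (1 + a) / 2 - (1 - a) / 2 = a by ring]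
      at this
  have hball : Metric.closedBall (0 : X) (1 / 2) ⊆ C := fun x hx => by
    simp only [hC, Set.mem_ofPred_eq]
    have := mem_closedBall_zero_iff.1 hx
    linarith [hU2 x]
  have hsub : C ⊆ Metric.closedBall (0 : X) 1 := fun x hx =>
    mem_closedBall_zero_iff.2 ((hU1 x).trans hx)
  have hnhds : C ∈ 𝓝 (0 : X) :=
    mem_of_superset (Metric.closedBall_mem_nhds _ (by norm_num)) hball
  have habs : Absorbent ℝ C := absorbent_nhds_zero hnhds
  set μ := gaugeSeminorm hbal hconv habs with hμ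
  have hμ' : ∀ x, μ x = gauge C x := fun x => rfl
  have hlow : ∀ x, ‖x‖ ≤ μ x := fun x => by
    have := gauge_mono habs hsub x
    rwa [gauge_closedBall zero_le_one, div_one] at this
  have hup : ∀ x, μ x ≤ 2 * ‖x‖ := fun x => by
    have := gauge_mono (absorbent_nhds_zero (Metric.closedBall_mem_nhds (0 : X)
      (show (0 : ℝ) < 1 / 2 by norm_num))) hball x
    rw [gauge_closedBall (by norm_num : (0 : ℝ) ≤ 1 / 2)] at this
    rw [hμ']
    linarith
  refine ⟨μ, ⟨1, 2, one_pos, two_pos, fun x => ⟨by simpa using hlow x, hup x⟩⟩, fun ε hε => ?_⟩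
  have hlip : LipschitzWith 1 U := LipschitzWith.of_le_add fun x y => by
    have := hU3 y (x - y)
    rwa [add_sub_cancel, ← dist_eq_norm] at this
  have hclosed : IsClosed C := isClosed_le hlip.continuous continuous_const
  have hone : ∀ u, μ u = 1 → U u = 1 := by
    intro u hu
    rw [hμ'] at hu
    apply le_antisymm
    · have := (gauge_le_one_iff_mem_closure hconv hnhds).1 hu.le
      rwa [hclosed.closure_eq] at this
    · by_contra hcon
      push Not at hcon
      have : u ∈ interior C :=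
        interior_maximal (fun z (hz : U z < 1) => le_of_lt hz)
          (isOpen_lt hlip.continuous continuous_const) hcon
      have := (gauge_lt_one_iff_mem_interior hconv hnhds).2 this
      linarith
  obtain ⟨τ₁, hτ₁, hsm⟩ := hU6 (ε / 8) (by positivity)
  refine ⟨min (min (τ₁ / 2) (1 / 4)) (ε / 16), by positivity, fun τ hτ hτle x y hx hy => ?_⟩
  have hτ2 : τ ≤ τ₁ / 2 := hτle.trans ((min_le_left _ _).trans (min_le_left _ _))
  have hτ4 : τ ≤ 1 / 4 := hτle.trans ((min_le_left _ _).trans (min_le_right _ _))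
  have hτε : τ ≤ ε / 16 := hτle.trans (min_le_right _ _)
  set v := τ • y with hv
  have hμv : μ v = τ := by
    rw [hv, map_smul_eq_mul, hy, mul_one, Real.norm_of_nonneg hτ.le]
  set r := μ (x + v) with hr
  set r' := μ (x - v) with hr'
  have hμxv : |r - 1| ≤ τ ∧ |r' - 1| ≤ τ := by
    have a1 := abs_sub_map_le_sub μ (x + v) x
    have a2 := abs_sub_map_le_sub μ (x - v) x
    rw [add_sub_cancel_left, hμv, hx] at a1
    rw [sub_sub_cancel_left, map_neg_eq_map, hμv, hx] at a2
    exact ⟨a1, a2⟩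
  obtain ⟨hr1, hr1'⟩ := hμxv
  rw [abs_le] at hr1 hr1'
  rcases le_or_gt ((r + r') / 2 - 1) 0 with hd | hd
  · exact hd.trans (by positivity)
  set d := (r + r') / 2 - 1 with hddef
  have hrpos : 0 < r := by linarith
  have hrpos' : 0 < r' := by linarith
  set u := r⁻¹ • (x + v) with hudef
  set u' := r'⁻¹ • (x - v) with hudef'
  have hμu : μ u = 1 ∧ μ u' = 1 := by
    constructor
    · rw [hudef, map_smul_eq_mul, Real.norm_of_nonneg (by positivity), ← hr,
        inv_mul_cancel₀ hrpos.ne']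
    · rw [hudef', map_smul_eq_mul, Real.norm_of_nonneg (by positivity), ← hr',
        inv_mul_cancel₀ hrpos'.ne']
  have hd1 : μ (u - x) ≤ 2 * τ ∧ μ (u' - x) ≤ 2 * τ := by
    constructor
    · have e : u - x = (r⁻¹ - 1) • (x + v) + v := by
        rw [hudef, sub_smul, one_smul]; abel
      rw [e]
      refine (map_add_le_add μ _ _).trans ?_
      rw [map_smul_eq_mul, hμv, ← hr, Real.norm_eq_abs]
      have : |r⁻¹ - 1| * r = |1 - r| := by
        conv_lhs => arg 2; rw [← abs_of_pos hrpos]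
        rw [← abs_mul, sub_mul, inv_mul_cancel₀ hrpos.ne', one_mul]
      rw [this]
      have : |1 - r| ≤ τ := abs_le.2 ⟨by linarith, by linarith⟩
      linarith
    · have e : u' - x = (r'⁻¹ - 1) • (x - v) + -v := by
        rw [hudef', sub_smul, one_smul]; abel
      rw [e]
      refine (map_add_le_add μ _ _).trans ?_
      rw [map_smul_eq_mul, map_neg_eq_map, hμv, ← hr', Real.norm_eq_abs]
      have : |r'⁻¹ - 1| * r' = |1 - r'| := by
        conv_lhs => arg 2; rw [← abs_of_pos hrpos']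
        rw [← abs_mul, sub_mul, inv_mul_cancel₀ hrpos'.ne', one_mul]
      rw [this]
      have : |1 - r'| ≤ τ := abs_le.2 ⟨by linarith, by linarith⟩
      linarith
  set m := (1 / 2 : ℝ) • (u + u') with hm
  set w := (1 / 2 : ℝ) • (u - u') with hw
  have hwn : ‖w‖ ≤ 2 * τ := by
    refine (hlow w).trans ?_
    rw [hw, map_smul_eq_mul, show u - u' = (u - x) + -(u' - x) by abel]
    have := map_add_le_add μ (u - x) (-(u' - x))
    rw [map_neg_eq_map] at this
    rw [Real.norm_of_nonneg (by norm_num : (0 : ℝ) ≤ 1 / 2)]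
    linarith [hd1.1, hd1.2]
  have hUm := hsm m w (by linarith)
  have e1 : m + w = u := by rw [hm, hw]; module
  have e2 : m - w = u' := by rw [hm, hw]; module
  rw [e1, e2, hone u hμu.1, hone u' hμu.2] at hUm
  set q := (1 + d)⁻¹ • x with hq
  have hq1 : U q ≤ 1 - d / (1 + d) / 2 := by
    have := hU5 x 0 (1 + d)⁻¹ (d / (1 + d)) (by positivity) (by positivity) (by field_simp)
    rw [smul_zero, add_zero, ← hq, hone x hx, mul_one] at this
    have h0 : U 0 ≤ 1 / 2 := by simpa using hU2 0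
    have := mul_le_mul_of_nonneg_left h0 (show 0 ≤ d / (1 + d) by positivity)
    have e : (1 + d)⁻¹ = 1 - d / (1 + d) := by field_simp; ring
    linarith
  have hqm : m = q + (-((r - r') / (r + r'))) • w := by
    rw [hq, hm, hw]
    have ex : (2 : ℝ) • x = r • u + r' • u' := by
      rw [hudef, hudef', smul_inv_smul₀ hrpos.ne', smul_inv_smul₀ hrpos'.ne', two_smul]
      abel
    have hx' : (1 + d)⁻¹ • x = (r + r')⁻¹ • (r • u + r' • u') := by
      rw [← ex, smul_smul]
      congr 1
      rw [hddef, show 1 + ((r + r') / 2 - 1) = (r + r') / 2 by ring, inv_div]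
      field_simp
    rw [hx']
    match_scalars <;> field_simp <;> ring
  have hcoef : |(r - r') / (r + r')| ≤ τ := by
    rw [abs_div, abs_of_pos (by linarith : 0 < r + r'), div_le_iff₀ (by linarith)]
    have h2 : τ * 2 ≤ τ * (r + r') := mul_le_mul_of_nonneg_left (by linarith) hτ.le
    exact (abs_le.2 ⟨by linarith, by linarith⟩ : |r - r'| ≤ τ * 2).trans h2
  have hUm' : U m ≤ U q + τ * (2 * τ) := by
    rw [hqm]
    refine (hU3 q _).trans (add_le_add le_rfl ?_)
    rw [norm_smul, Real.norm_eq_abs, abs_neg]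
    exact mul_le_mul hcoef hwn (norm_nonneg _) hτ.le
  have hεw : ε / 8 * ‖w‖ ≤ ε / 8 * (2 * τ) :=
    mul_le_mul_of_nonneg_left hwn (by positivity)
  have hττ : τ * (2 * τ) ≤ τ * (ε / 8) := mul_le_mul_of_nonneg_left (by linarith) hτ.le
  have hfrac : d / (1 + d) ≤ ε * τ / 2 := by linarith
  rw [div_le_iff₀ (by linarith)] at hfrac
  have hd2 : d ≤ 1 := by linarith
  have := mul_le_mul_of_nonneg_left (show 1 + d ≤ 2 by linarith)
    (show 0 ≤ ε * τ / 2 by positivity)
  linarith

end Vale.Agent.P125
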