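import Mathlib
import Vale.Agent.P125.Renorm

/-!
# Non-flat trees give ladders

If `treeSup n 0 > ε n` for all `n`, then the dual ball shatters threshold trees of every depth,
and Hodges' argument extracts ladders of every length with a fixed gap.
-/

namespace Vale.Agent.P125

open Finset Filter Topology

variable {X : Type*} [NormedAddCommGroup X] [NormedSpace ℝ X]

/-- `F` shatters a threshold tree of depth `m` with gap `θ` and nodes in `P`. -/
def Shatters (θ : ℝ) (P : Set (X × ℝ)) : ℕ → Set (StrongDual ℝ X) → Prop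
  | 0, F => F.Nonempty
  | m + 1, F => ∃ q ∈ P, Shatters θ P m {φ ∈ F | q.2 + θ ≤ φ q.1} ∧
      Shatters θ P m {φ ∈ F | φ q.1 ≤ q.2}

lemma Shatters.mono {θ : ℝ} {P P' : Set (X × ℝ)} (hP : P ⊆ P') :
    ∀ {m} {F F' : Set (StrongDual ℝ X)}, F ⊆ F' → Shatters θ P m F → Shatters θ P' m F' := by
  intro m
  induction m with
  | zero => exact fun hF h => Set.Nonempty.mono hF h
  | succ m ih =>
    rintro F F' hF ⟨q, hq, h1, h2⟩
    exact ⟨q, hP hq, ih (fun φ hφ => ⟨hF hφ.1, hφ.2⟩) h1, ih (fun φ hφ => ⟨hF hφ.1, hφ.2⟩) h2⟩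

lemma Shatters.nonempty {θ : ℝ} {P : Set (X × ℝ)} :
    ∀ {m} {F : Set (StrongDual ℝ X)}, Shatters θ P m F → F.Nonempty := by
  intro m
  induction m with
  | zero => exact fun h => h
  | succ m ih =>
    rintro F ⟨q, hq, h1, -⟩
    exact (ih h1).mono fun φ hφ => hφ.1

lemma Shatters.anti {θ : ℝ} {P : Set (X × ℝ)} {m m' : ℕ} (hm : m ≤ m')
    {F : Set (StrongDual ℝ X)} (h : Shatters θ P m' F) : Shatters θ P m F := by
  have step : ∀ (m : ℕ) (F : Set (StrongDual ℝ X)), Shatters θ P (m + 1) F → Shatters θ P m F := by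
    intro m
    induction m with
    | zero => exact fun F h => h.nonempty
    | succ m ih =>
      rintro F ⟨q, hq, a, b⟩
      exact ⟨q, hq, ih _ a, ih _ b⟩
  induction hm with
  | refl => exact h
  | step _ ih => exact ih (step _ _ h)

lemma Shatters.split {θ : ℝ} {P P₁ P₂ : Set (X × ℝ)} (hP : P ⊆ P₁ ∪ P₂) :
    ∀ m₁ m₂ {F : Set (StrongDual ℝ X)}, Shatters θ P (m₁ + m₂) F →
      Shatters θ P₁ m₁ F ∨ Shatters θ P₂ m₂ F := by
  intro m₁ m₂
  induction hs : m₁ + m₂ generalizing m₁ m₂ with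
  | zero =>
    intro F h
    obtain rfl : m₁ = 0 := by omega
    exact Or.inl h
  | succ s ih =>
    rintro F h
    rcases Nat.eq_zero_or_pos m₁ with rfl | h₁
    · exact Or.inl (Shatters.nonempty h)
    rcases Nat.eq_zero_or_pos m₂ with rfl | h₂
    · exact Or.inr (Shatters.nonempty h)
    obtain ⟨q, hq, hA, hB⟩ := h
    have hsubA : {φ ∈ F | q.2 + θ ≤ φ q.1} ⊆ F := fun φ hφ => hφ.1
    have hsubB : {φ ∈ F | φ q.1 ≤ q.2} ⊆ F := fun φ hφ => hφ.1
    rcases hP hq with hq1 | hq2
    · rcases ih (m₁ - 1) m₂ (by omega) hA with a | a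
      · rcases ih (m₁ - 1) m₂ (by omega) hB with b | b
        · left
          obtain ⟨k, rfl⟩ : ∃ k, m₁ = k + 1 := ⟨m₁ - 1, by omega⟩
          exact ⟨q, hq1, a, b⟩
        · exact Or.inr (b.mono Set.Subset.rfl hsubB)
      · exact Or.inr (a.mono Set.Subset.rfl hsubA)
    · rcases ih m₁ (m₂ - 1) (by omega) hA with a | a
      · exact Or.inl (a.mono Set.Subset.rfl hsubA)
      · rcases ih m₁ (m₂ - 1) (by omega) hB with b | b
        · exact Or.inl (b.mono Set.Subset.rfl hsubB)
        · right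
          obtain ⟨k, rfl⟩ : ∃ k, m₂ = k + 1 := ⟨m₂ - 1, by omega⟩
          exact ⟨q, hq2, a, b⟩

/-- A ladder of length `k` between the levels `lo < hi`. -/
def IsLadder (P : Set (X × ℝ)) (F : Set (StrongDual ℝ X)) (hi lo : ℝ) (k : ℕ) : Prop :=
  ∃ (x : Fin k → X) (φ : Fin k → StrongDual ℝ X),
    (∀ i, (∃ r, (x i, r) ∈ P) ∧ φ i ∈ F) ∧
      (∀ i j, i < j → hi ≤ φ i (x j)) ∧ ∀ i j, j < i → φ i (x j) ≤ lo

lemma hodges (θ r : ℝ) : ∀ kh kl : ℕ, ∃ M : ℕ, ∀ (P : Set (X × ℝ)) (F : Set (StrongDual ℝ X)),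
    (∀ q ∈ P, q.2 = r) → Shatters θ P M F →
      IsLadder P F (r + θ / 2) r kh ∨ IsLadder P F (r + θ) (r + θ / 2) kl := by
  intro kh kl
  induction hs : kh + kl generalizing kh kl with
  | zero =>
    obtain rfl : kh = 0 := by omega
    exact ⟨0, fun P F _ _ => Or.inl ⟨Fin.elim0, Fin.elim0, fun i => i.elim0, fun i => i.elim0,
      fun i => i.elim0⟩⟩
  | succ s ih =>
    rcases kh with - | kh
    · exact ⟨0, fun P F _ _ => Or.inl ⟨Fin.elim0, Fin.elim0, fun i => i.elim0, fun i => i.elim0,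
        fun i => i.elim0⟩⟩
    rcases kl with - | kl
    · exact ⟨0, fun P F _ _ => Or.inr ⟨Fin.elim0, Fin.elim0, fun i => i.elim0, fun i => i.elim0,
        fun i => i.elim0⟩⟩
    obtain ⟨M₁, h₁⟩ := ih kh (kl + 1) (by omega)
    obtain ⟨M₂, h₂⟩ := ih (kh + 1) kl (by omega)
    refine ⟨(M₁ + 1) + (M₂ + 1), fun P F hP h => ?_⟩
    obtain ⟨ψ, hψ⟩ := h.nonempty
    rcases h.split (P₁ := {q ∈ P | r + θ / 2 ≤ ψ q.1}) (P₂ := {q ∈ P | ψ q.1 ≤ r + θ / 2})
      (fun q hq => (le_total (r + θ / 2) (ψ q.1)).imp (fun h => ⟨hq, h⟩) (fun h => ⟨hq, h⟩))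
      (M₁ + 1) (M₂ + 1) with hH | hL
    · obtain ⟨q, hq, -, hB⟩ := hH
      have hqr : q.2 = r := hP q hq.1
      rcases h₁ _ _ (fun q hq => hP q hq.1) hB with ⟨x, φ, hmem, hup, hdn⟩ | ⟨x, φ, hmem, hup, hdn⟩
      · refine Or.inl ⟨Fin.cons q.1 x, Fin.cons ψ φ, ?_, ?_, ?_⟩
        · intro i
          refine Fin.cases ?_ (fun i => ?_) i
          · simp only [Fin.cons_zero]
            exact ⟨⟨q.2, hq.1⟩, hψ⟩
          · simp only [Fin.cons_succ]
            exact ⟨(hmem i).1.imp fun _ h => h.1, (hmem i).2.1⟩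
        · intro i j
          refine Fin.cases ?_ (fun i => ?_) i <;> refine Fin.cases ?_ (fun j => ?_) j <;>
            intro hij <;> simp at hij ⊢
          · obtain ⟨r', hr'⟩ := (hmem j).1
            exact hr'.2
          · exact hup i j hij
        · intro i j
          refine Fin.cases ?_ (fun i => ?_) i <;> refine Fin.cases ?_ (fun j => ?_) j <;>
            intro hij <;> simp at hij ⊢
          · have := (hmem i).2.2
            rwa [hqr] at this
          · exact hdn i j hij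
      · exact Or.inr ⟨x, φ, fun i => ⟨(hmem i).1.imp fun _ h => h.1, (hmem i).2.1⟩, hup, hdn⟩
    · obtain ⟨q, hq, hA, -⟩ := hL
      have hqr : q.2 = r := hP q hq.1
      rcases h₂ _ _ (fun q hq => hP q hq.1) hA with ⟨x, φ, hmem, hup, hdn⟩ | ⟨x, φ, hmem, hup, hdn⟩
      · exact Or.inl ⟨x, φ, fun i => ⟨(hmem i).1.imp fun _ h => h.1, (hmem i).2.1⟩, hup, hdn⟩
      · refine Or.inr ⟨Fin.snoc x q.1, Fin.snoc φ ψ, ?_, ?_, ?_⟩
        · intro i
          refine Fin.lastCases ?_ (fun i => ?_) i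
          · simp only [Fin.snoc_last]
            exact ⟨⟨q.2, hq.1⟩, hψ⟩
          · simp only [Fin.snoc_castSucc]
            exact ⟨(hmem i).1.imp fun _ h => h.1, (hmem i).2.1⟩
        · intro i j
          refine Fin.lastCases ?_ (fun i => ?_) i <;> refine Fin.lastCases ?_ (fun j => ?_) j <;>
            intro hij <;> simp at hij ⊢
          · exact absurd hij (not_lt.2 (Fin.le_last _))
          · have := (hmem i).2.2
            rwa [hqr] at this
          · exact hup i j hij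
        · intro i j
          refine Fin.lastCases ?_ (fun i => ?_) i <;> refine Fin.lastCases ?_ (fun j => ?_) j <;>
            intro hij <;> simp at hij ⊢
          · obtain ⟨r', hr'⟩ := (hmem j).1
            exact hr'.2
          · exact absurd hij (not_lt.2 (Fin.le_last _))
          · exact hdn i j hij

/-- Threshold nodes: unit-ball vectors with a level on the grid of step `θ`. -/
def gridNodes (θ : ℝ) (K : ℕ) : Set (X × ℝ) :=
  {q | ‖q.1‖ ≤ 1 ∧ ∃ c < K, q.2 = -1 + c * θ}

lemma grid_colour (θ : ℝ) : ∀ K M : ℕ, ∃ N : ℕ, ∀ F : Set (StrongDual ℝ X),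
    Shatters θ (gridNodes θ K) (N + 1) F →
      ∃ c < K, Shatters θ {q : X × ℝ | ‖q.1‖ ≤ 1 ∧ q.2 = -1 + c * θ} M F := by
  intro K M
  induction K with
  | zero =>
    refine ⟨0, fun F h => ?_⟩
    obtain ⟨q, ⟨-, c, hc, -⟩, -⟩ := h
    omega
  | succ K ih =>
    obtain ⟨N, hN⟩ := ih
    refine ⟨N + M, fun F h => ?_⟩
    rw [add_right_comm] at h
    rcases h.split (P₁ := gridNodes θ K) (P₂ := {q : X × ℝ | ‖q.1‖ ≤ 1 ∧ q.2 = -1 + K * θ})
      (fun q hq => by
        obtain ⟨h1, c, hc, h2⟩ := hq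
        rcases Nat.lt_succ_iff_lt_or_eq.1 hc with hc | rfl
        · exact Or.inl ⟨h1, c, hc, h2⟩
        · exact Or.inr ⟨h1, h2⟩) (N + 1) M with h' | h'
    · obtain ⟨c, hc, h''⟩ := hN F h'
      exact ⟨c, by omega, h''⟩
    · exact ⟨K, by omega, h'⟩

/-- Supremum of the values at `z` of a family of functionals. -/
noncomputable def familySup (F : Set (StrongDual ℝ X)) (z : X) : ℝ :=
  sSup ((fun φ : StrongDual ℝ X => φ z) '' F)

lemma apply_le_familySup {F : Set (StrongDual ℝ X)} (hF : ∀ φ ∈ F, ‖φ‖ ≤ 1)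
    {φ : StrongDual ℝ X} (hφ : φ ∈ F) (z : X) : φ z ≤ familySup F z := by
  refine le_csSup ⟨‖z‖, ?_⟩ ⟨φ, hφ, rfl⟩
  rintro _ ⟨ψ, hψ, rfl⟩
  exact (Real.le_norm_self _).trans
    ((ψ.le_opNorm z).trans (mul_le_of_le_one_left (norm_nonneg _) (hF ψ hψ)))

lemma familySup_le {F : Set (StrongDual ℝ X)} (hne : F.Nonempty) {z : X} {c : ℝ}
    (h : ∀ φ ∈ F, φ z ≤ c) : familySup F z ≤ c :=
  csSup_le (hne.image _) (by rintro _ ⟨φ, hφ, rfl⟩; exact h φ hφ)

/-- Average of `g` over the `2^k` branches of the tree `d`. -/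
noncomputable def treeAvg : ℕ → (List Bool → X) → (X → ℝ) → X → ℝ
  | 0, _, g, s => g s
  | k + 1, d, g, s => (treeAvg k (fun l => d (true :: l)) g (s + d []) +
      treeAvg k (fun l => d (false :: l)) g (s - d [])) / 2

lemma treeAvg_mono {g g' : X → ℝ} (h : ∀ z, g z ≤ g' z) :
    ∀ (k : ℕ) (d : List Bool → X) (s : X), treeAvg k d g s ≤ treeAvg k d g' s := by
  intro k
  induction k with
  | zero => exact fun d s => h s
  | succ k ih =>
    intro d s
    have := ih (fun l => d (true :: l)) (s + d [])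
    have := ih (fun l => d (false :: l)) (s - d [])
    simp only [treeAvg]
    linarith

lemma treeAvg_add (g g' : X → ℝ) : ∀ (k : ℕ) (d : List Bool → X) (s : X),
    treeAvg k d (fun z => g z + g' z) s = treeAvg k d g s + treeAvg k d g' s := by
  intro k
  induction k with
  | zero => exact fun d s => rfl
  | succ k ih => intro d s; simp only [treeAvg, ih]; ring

lemma treeAvg_sum {ι : Type*} (S : Finset ι) (g : ι → X → ℝ) :
    ∀ (k : ℕ) (d : List Bool → X) (s : X),
    treeAvg k d (fun z => ∑ i ∈ S, g i z) s = ∑ i ∈ S, treeAvg k d (g i) s := by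
  intro k
  induction k with
  | zero => exact fun d s => rfl
  | succ k ih =>
    intro d s
    simp only [treeAvg, ih, ← sum_add_distrib, sum_div]

lemma exp_treeAvg_le (lam : ℝ) (g : X → ℝ) : ∀ (k : ℕ) (d : List Bool → X) (s : X),
    Real.exp (lam * treeAvg k d g s) ≤ treeAvg k d (fun z => Real.exp (lam * g z)) s := by
  intro k
  induction k with
  | zero => exact fun d s => le_rfl
  | succ k ih =>
    intro d s
    set a := treeAvg k (fun l => d (true :: l)) g (s + d []) with ha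
    set b := treeAvg k (fun l => d (false :: l)) g (s - d []) with hb
    have h := convexOn_exp.2 (Set.mem_univ (lam * a)) (Set.mem_univ (lam * b))
      (show (0 : ℝ) ≤ 1 / 2 by norm_num) (show (0 : ℝ) ≤ 1 / 2 by norm_num) (by norm_num)
    simp only [smul_eq_mul] at h
    have e : lam * treeAvg (k + 1) d g s = 1 / 2 * (lam * a) + 1 / 2 * (lam * b) := by
      simp only [treeAvg, ← ha, ← hb]; ring
    rw [e]
    have := ih (fun l => d (true :: l)) (s + d [])
    have := ih (fun l => d (false :: l)) (s - d [])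
    simp only [treeAvg]
    linarith

lemma exists_tree : ∀ (k : ℕ) (x : X) (c : ℝ), c < treeSup k x →
    ∃ d : List Bool → X, (∀ l, ‖d l‖ ≤ 1) ∧ c < treeAvg k d (fun z => ‖z‖) x := by
  intro k
  induction k with
  | zero => exact fun x c h => ⟨fun _ => 0, fun _ => by simp, h⟩
  | succ k ih =>
    intro x c h
    simp only [treeSup] at h
    obtain ⟨y, hy⟩ := exists_lt_of_lt_ciSup h
    set a := treeSup k (x + (y : X))
    set b := treeSup k (x - (y : X))
    obtain ⟨d1, hd1, ha⟩ := ih (x + (y : X)) (a - ((a + b) / 2 - c)) (by linarith)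
    obtain ⟨d2, hd2, hb⟩ := ih (x - (y : X)) (b - ((a + b) / 2 - c)) (by linarith)
    refine ⟨fun l => match l with
      | [] => (y : X)
      | true :: l => d1 l
      | false :: l => d2 l, fun l => ?_, ?_⟩
    · match l with
      | [] => exact mem_closedBall_zero_iff.1 y.2
      | true :: l => exact hd1 l
      | false :: l => exact hd2 l
    · simp only [treeAvg]
      linarith

lemma potential_bound {K : ℕ} (hK : 0 < K) {θ lam : ℝ} (hKθ : (K : ℝ) * θ = 2) (hlam : 0 < lam) :
    ∀ (k D : ℕ) (F : Set (StrongDual ℝ X)), F.Nonempty → (∀ φ ∈ F, ‖φ‖ ≤ 1) →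
      ¬ Shatters θ (gridNodes θ (K + 1)) (D + 1) F →
      ∀ (d : List Bool → X), (∀ l, ‖d l‖ ≤ 1) → ∀ s : X,
        treeAvg k d (fun z => Real.exp (lam * familySup F z)) s ≤
          Real.exp (lam * familySup F s) * Real.exp (lam * θ + lam ^ 2 / 2) ^ k *
            (1 + k * K : ℝ) ^ D := by
  classical
  have hK' : (1 : ℝ) ≤ K := by exact_mod_cast hK
  have hθ : 0 < θ := by nlinarith
  intro k
  induction k with
  | zero => intro D F hne hball _ d _ s; simp [treeAvg]
  | succ k ih =>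
    intro D F hne hball hsh d hd s
    set y := d [] with hy
    let bk : StrongDual ℝ X → ℕ := fun φ => min (K - 1) ⌊(φ y + 1) / θ⌋₊
    have hval : ∀ φ ∈ F, |φ y| ≤ 1 := fun φ hφ => (φ.le_opNorm y).trans
      (mul_le_one₀ (hball φ hφ) (norm_nonneg _) (hd _))
    have hbk : ∀ φ ∈ F, bk φ < K ∧ -1 + (bk φ : ℝ) * θ ≤ φ y ∧
        φ y ≤ -1 + ((bk φ : ℝ) + 1) * θ := by
      intro φ hφ
      have h0 := abs_le.1 (hval φ hφ)
      have hnn : 0 ≤ (φ y + 1) / θ := div_nonneg (by linarith) hθ.le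
      refine ⟨by simp only [bk]; omega, ?_, ?_⟩
      · have h2 : (bk φ : ℝ) ≤ ⌊(φ y + 1) / θ⌋₊ := by exact_mod_cast min_le_right _ _
        have h1 := Nat.floor_le hnn
        rw [le_div_iff₀ hθ] at h1
        have h3 := mul_le_mul_of_nonneg_right h2 hθ.le
        linarith
      · rcases le_total (K - 1) ⌊(φ y + 1) / θ⌋₊ with hc | hc
        · have : (bk φ : ℝ) + 1 = K := by
            simp only [bk, min_eq_left hc]
            have : (((K - 1 : ℕ)) : ℝ) = (K : ℝ) - 1 := by
              rw [Nat.cast_sub (by omega)]; simp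
            rw [this]; ring
          rw [this, hKθ]
          linarith
        · simp only [bk, min_eq_right hc]
          have := Nat.lt_floor_add_one ((φ y + 1) / θ)
          rw [div_lt_iff₀ hθ] at this
          linarith
    let Fb : ℕ → Set (StrongDual ℝ X) := fun i => {φ ∈ F | bk φ = i}
    let G := gridNodes (X := X) θ (K + 1)
    have hsep : ∀ i i', i + 2 ≤ i' → ¬ (Shatters θ G D (Fb i) ∧ Shatters θ G D (Fb i')) := by
      rintro i i' hii ⟨hi, hi'⟩
      obtain ⟨φ, hφ, hφi⟩ := hi.nonempty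
      have hiK : i < K := hφi ▸ (hbk φ hφ).1
      apply hsh
      refine ⟨(y, -1 + ((i + 1 : ℕ) : ℝ) * θ), ⟨hd _, i + 1, by omega, rfl⟩, ?_, ?_⟩
      · refine hi'.mono Set.Subset.rfl fun ψ hψ => ⟨hψ.1, ?_⟩
        have h1 := (hbk ψ hψ.1).2.1
        rw [hψ.2] at h1
        have h2 : ((i + 1 : ℕ) : ℝ) + 1 ≤ (i' : ℝ) := by exact_mod_cast hii
        have h3 := mul_le_mul_of_nonneg_right h2 hθ.le
        simp only
        linarith
      · refine hi.mono Set.Subset.rfl fun ψ hψ => ⟨hψ.1, ?_⟩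
        have h1 := (hbk ψ hψ.1).2.2
        rw [hψ.2] at h1
        push_cast
        exact h1
    have hi0 : ∃ i₀, (∃ φ ∈ F, bk φ = i₀) ∧
        ∀ i, Shatters θ G D (Fb i) → i = i₀ ∨ i = i₀ + 1 := by
      by_cases hex : ∃ i, Shatters θ G D (Fb i)
      · have h := Nat.find_spec hex
        refine ⟨Nat.find hex, h.nonempty, fun i hi => ?_⟩
        have h1 := Nat.find_min' hex hi
        by_contra hcon
        exact hsep (Nat.find hex) i (by omega) ⟨h, hi⟩
      · obtain ⟨φ, hφ⟩ := hne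
        exact ⟨bk φ, ⟨φ, hφ, rfl⟩, fun i hi => absurd ⟨i, hi⟩ hex⟩
    obtain ⟨i₀, ⟨φ₀, hφ₀, hφ₀i⟩, hwin⟩ := hi0
    let W : Set (StrongDual ℝ X) := {φ ∈ F | bk φ = i₀ ∨ bk φ = i₀ + 1}
    have hWne : W.Nonempty := ⟨φ₀, hφ₀, Or.inl hφ₀i⟩
    let S : Finset ℕ := (range K).filter fun i => (i ≠ i₀ ∧ i ≠ i₀ + 1) ∧ (Fb i).Nonempty
    have hsplit : ∀ z, Real.exp (lam * familySup F z) ≤
        Real.exp (lam * familySup W z) + ∑ i ∈ S, Real.exp (lam * familySup (Fb i) z) := by
      intro z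
      set T := Real.exp (lam * familySup W z) + ∑ i ∈ S, Real.exp (lam * familySup (Fb i) z)
      have hT : 0 < T := by positivity
      rw [← Real.le_log_iff_exp_le hT, ← le_div_iff₀' hlam]
      refine familySup_le hne fun φ hφ => ?_
      rw [le_div_iff₀' hlam, Real.le_log_iff_exp_le hT]
      by_cases hw : bk φ = i₀ ∨ bk φ = i₀ + 1
      · refine le_trans (Real.exp_le_exp.2 (mul_le_mul_of_nonneg_left ?_ hlam.le))
          (le_add_of_nonneg_right (sum_nonneg fun i _ => (Real.exp_pos _).le))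
        exact apply_le_familySup (F := W) (fun ψ hψ => hball ψ hψ.1) ⟨hφ, hw⟩ z
      · have hS : bk φ ∈ S := by
          simp only [S, mem_filter, mem_range]
          exact ⟨(hbk φ hφ).1, not_or.1 hw, φ, hφ, rfl⟩
        refine le_trans ?_ (le_add_of_nonneg_left (Real.exp_pos _).le)
        refine le_trans ?_ (single_le_sum
          (f := fun i => Real.exp (lam * familySup (Fb i) z)) (fun i _ => (Real.exp_pos _).le) hS)
        refine Real.exp_le_exp.2 (mul_le_mul_of_nonneg_left ?_ hlam.le)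
        exact apply_le_familySup (F := Fb (bk φ)) (fun ψ hψ => hball ψ hψ.1) ⟨hφ, rfl⟩ z
    have hpart : ∀ (Pt : Set (StrongDual ℝ X)) (c : ℝ) (D' : ℕ), Pt ⊆ F → Pt.Nonempty →
        ¬ Shatters θ G (D' + 1) Pt → |c| ≤ 1 → (∀ φ ∈ Pt, |φ y - c| ≤ θ) →
        treeAvg (k + 1) d (fun z => Real.exp (lam * familySup Pt z)) s ≤
          Real.exp (lam * familySup F s) * Real.exp (lam * θ + lam ^ 2 / 2) ^ (k + 1) *
            (1 + k * K : ℝ) ^ D' := by
      intro Pt c D' hsub hne' hsh' hc hclose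
      have hball' : ∀ φ ∈ Pt, ‖φ‖ ≤ 1 := fun φ hφ => hball φ (hsub hφ)
      set E := Real.exp (lam * θ + lam ^ 2 / 2) with hE
      set B : ℝ := E ^ k * (1 + k * K : ℝ) ^ D' with hB
      have hB0 : 0 ≤ B := by positivity
      have hp1 : familySup Pt (s + y) ≤ familySup F s + (c + θ) := familySup_le hne' fun φ hφ => by
        have := abs_le.1 (hclose φ hφ)
        have := apply_le_familySup hball (hsub hφ) s
        rw [map_add]; linarith
      have hp2 : familySup Pt (s - y) ≤ familySup F s + (-c + θ) := familySup_le hne' fun φ hφ => by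
        have := abs_le.1 (hclose φ hφ)
        have := apply_le_familySup hball (hsub hφ) s
        rw [map_sub]; linarith
      have q1 := ih D' Pt hne' hball' hsh' (fun l => d (true :: l)) (fun l => hd _) (s + y)
      have q2 := ih D' Pt hne' hball' hsh' (fun l => d (false :: l)) (fun l => hd _) (s - y)
      rw [mul_assoc, ← hB] at q1 q2
      have r1 := q1.trans (mul_le_mul_of_nonneg_right
        (Real.exp_le_exp.2 (mul_le_mul_of_nonneg_left hp1 hlam.le)) hB0)
      have r2 := q2.trans (mul_le_mul_of_nonneg_right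
        (Real.exp_le_exp.2 (mul_le_mul_of_nonneg_left hp2 hlam.le)) hB0)
      have hcosh : Real.exp (lam * c) / 2 + Real.exp (-(lam * c)) / 2 ≤
          Real.exp (lam ^ 2 / 2) := by
        rw [← add_div, ← Real.cosh_eq]
        refine (Real.cosh_le_exp_half_sq _).trans (Real.exp_le_exp.2 ?_)
        rw [mul_pow]
        have : c ^ 2 ≤ 1 := (sq_le_one_iff_abs_le_one _).2 hc
        have := mul_le_mul_of_nonneg_left this (sq_nonneg lam)
        linarith
      calc treeAvg (k + 1) d (fun z => Real.exp (lam * familySup Pt z)) s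
          ≤ (Real.exp (lam * (familySup F s + (c + θ))) * B +
              Real.exp (lam * (familySup F s + (-c + θ))) * B) / 2 := by
            simp only [treeAvg, ← hy]
            linarith
        _ = Real.exp (lam * familySup F s) * B * Real.exp (lam * θ) *
              (Real.exp (lam * c) / 2 + Real.exp (-(lam * c)) / 2) := by
            simp only [mul_add, Real.exp_add, mul_neg]
            ring_nf
        _ ≤ Real.exp (lam * familySup F s) * B * Real.exp (lam * θ) * Real.exp (lam ^ 2 / 2) :=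
            mul_le_mul_of_nonneg_left hcosh (by positivity)
        _ = _ := by
            rw [hB, pow_succ, hE, Real.exp_add]
            ring
    have hWbd := hpart W (-1 + ((i₀ : ℝ) + 1) * θ) D (fun φ hφ => hφ.1) hWne
      (fun h => hsh (h.mono Set.Subset.rfl fun φ hφ => hφ.1)) (by
        have h1 : (i₀ : ℝ) + 1 ≤ K := by
          have := (hbk φ₀ hφ₀).1
          rw [hφ₀i] at this
          exact_mod_cast this
        have h2 := mul_le_mul_of_nonneg_right h1 hθ.le
        rw [hKθ] at h2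
        have : 0 ≤ ((i₀ : ℝ) + 1) * θ := by positivity
        exact abs_le.2 ⟨by linarith, by linarith⟩) (fun φ hφ => by
        obtain ⟨h1, h2, h3⟩ := hbk φ hφ.1
        rcases hφ.2 with h | h <;> rw [h] at h2 h3 <;> push_cast at h2 h3 <;>
          exact abs_le.2 ⟨by linarith, by linarith⟩)
    have hSbd : ∀ i ∈ S, ∃ D', D = D' + 1 ∧
        treeAvg (k + 1) d (fun z => Real.exp (lam * familySup (Fb i) z)) s ≤
          Real.exp (lam * familySup F s) * Real.exp (lam * θ + lam ^ 2 / 2) ^ (k + 1) *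
            (1 + k * K : ℝ) ^ D' := by
      intro i hi
      simp only [S, mem_filter, mem_range] at hi
      obtain ⟨hiK, hi', hne'⟩ := hi
      have hns : ¬ Shatters θ G D (Fb i) := fun h => (not_or.2 hi') (hwin i h)
      rcases D with - | D'
      · exact absurd hne' hns
      refine ⟨D', rfl, hpart (Fb i) (-1 + (i : ℝ) * θ) D' (fun φ hφ => hφ.1) hne' hns ?_
        fun φ hφ => ?_⟩
      · have h1 : (i : ℝ) ≤ K := by exact_mod_cast hiK.le
        have h2 := mul_le_mul_of_nonneg_right h1 hθ.le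
        rw [hKθ] at h2
        have : 0 ≤ (i : ℝ) * θ := by positivity
        exact abs_le.2 ⟨by linarith, by linarith⟩
      · obtain ⟨h1, h2, h3⟩ := hbk φ hφ.1
        rw [hφ.2] at h2 h3
        exact abs_le.2 ⟨by linarith, by linarith⟩
    refine (treeAvg_mono hsplit (k + 1) d s).trans ?_
    rw [treeAvg_add, treeAvg_sum]
    set c0 := Real.exp (lam * familySup F s) * Real.exp (lam * θ + lam ^ 2 / 2) ^ (k + 1)
    have hc0 : 0 ≤ c0 := by positivity
    have hcast : (1 + ((k + 1 : ℕ) : ℝ) * K) = (1 + k * K) + K := by push_cast; ring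
    rw [hcast]
    rcases D with - | D'
    · have : S = ∅ := Finset.eq_empty_iff_forall_notMem.2 fun i hi => by
        obtain ⟨D', h, -⟩ := hSbd i hi
        omega
      simp only [this, sum_empty, add_zero, pow_zero] at hWbd ⊢
      exact hWbd
    · have hS : ∑ i ∈ S, treeAvg (k + 1) d (fun z => Real.exp (lam * familySup (Fb i) z)) s ≤
          (K : ℝ) * (c0 * (1 + k * K : ℝ) ^ D') := by
        refine (sum_le_sum fun i hi => ?_).trans (b := ∑ _i ∈ S, c0 * (1 + k * K : ℝ) ^ D') ?_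
        · obtain ⟨D'', h, hb⟩ := hSbd i hi
          obtain rfl : D'' = D' := by omega
          exact hb
        · rw [sum_const, nsmul_eq_mul]
          refine mul_le_mul_of_nonneg_right ?_ (by positivity)
          exact_mod_cast (card_filter_le _ _).trans (le_of_eq (card_range K))
      refine (add_le_add hWbd hS).trans ?_
      have h0 : (0 : ℝ) ≤ 1 + k * K := by positivity
      calc c0 * (1 + k * K : ℝ) ^ (D' + 1) + K * (c0 * (1 + k * K : ℝ) ^ D')
          = c0 * (((1 + k * K : ℝ) + K) * (1 + k * K : ℝ) ^ D') := by ring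
        _ ≤ c0 * ((1 + k * K : ℝ) + K) ^ (D' + 1) := by
            refine mul_le_mul_of_nonneg_left ?_ hc0
            rw [pow_succ' ((1 + k * K : ℝ) + K)]
            exact mul_le_mul_of_nonneg_left
              (pow_le_pow_left₀ h0 (le_add_of_nonneg_right (by positivity)) _) (by positivity)

/-- Ladders of every length from non-flat trees. -/
theorem ladders (h : ¬ ∀ ε : ℝ, 0 < ε → ∃ n : ℕ, 1 ≤ n ∧ treeSup n (0 : X) ≤ ε * n) :
    ∃ θ : ℝ, 0 < θ ∧ ∀ k : ℕ, ∃ (r : ℝ) (x : Fin k → X) (φ : Fin k → StrongDual ℝ X),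
      (∀ i, ‖x i‖ ≤ 1) ∧ (∀ i, ‖φ i‖ ≤ 1) ∧ (∀ i j, i < j → r + θ ≤ φ i (x j)) ∧
        ∀ i j, j < i → φ i (x j) ≤ r := by
  push Not at h
  obtain ⟨ε, hε, hbig⟩ := h
  set K : ℕ := ⌈8 / ε⌉₊ + 1 with hKdef
  have hK : 0 < K := Nat.succ_pos _
  have hKr : (0 : ℝ) < K := by exact_mod_cast hK
  set θ : ℝ := 2 / K with hθdef
  have hθ : 0 < θ := by positivity
  have hKθ : (K : ℝ) * θ = 2 := by rw [hθdef]; field_simp
  have hθε : θ ≤ ε / 4 := by
    have h1 : 8 / ε ≤ K := by
      have := Nat.le_ceil (8 / ε)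
      rw [hKdef]; push_cast; linarith
    rw [div_le_iff₀ hε] at h1
    rw [hθdef, div_le_iff₀ hKr]
    linarith
  set B₁ : Set (StrongDual ℝ X) := {φ | ‖φ‖ ≤ 1}
  have hsh : ∀ D : ℕ, Shatters θ (gridNodes (X := X) θ (K + 1)) (D + 1) B₁ := by
    intro D
    by_contra hns
    obtain ⟨n, hn⟩ := exists_nat_gt (64 * (D : ℝ) ^ 2 * (1 + K) / ε ^ 4 + 1)
    rw [← lt_sub_iff_add_lt, div_lt_iff₀ (by positivity)] at hn
    have hn1 : (1 : ℝ) < n := by
      by_contra hcon
      push Not at hcon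
      have : ((n : ℝ) - 1) * ε ^ 4 ≤ 0 :=
        mul_nonpos_of_nonpos_of_nonneg (by linarith) (by positivity)
      have : 0 ≤ 64 * (D : ℝ) ^ 2 * (1 + K) := by positivity
      linarith
    obtain ⟨d, hd, hlt⟩ := exists_tree n (0 : X) (ε * n) (hbig n (by exact_mod_cast hn1.le))
    have hnorm : ∀ z : X, ‖z‖ ≤ familySup B₁ z := fun z => by
      obtain ⟨g, hg, hgz⟩ := exists_dual_vector'' ℝ z
      have := apply_le_familySup (F := B₁) (fun φ hφ => hφ) hg z
      simpa [hgz] using this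
    have hzero : familySup B₁ (0 : X) ≤ 0 :=
      familySup_le ⟨0, by simp [B₁]⟩ fun φ _ => by simp
    have hlam : (0 : ℝ) < ε / 2 := by positivity
    have hpot := potential_bound hK hKθ hlam n D B₁ ⟨0, by simp [B₁]⟩ (fun φ hφ => hφ) hns d hd 0
    have h1 : Real.exp (ε / 2 * (ε * n)) ≤
        Real.exp (ε / 2 * θ + (ε / 2) ^ 2 / 2) ^ n * (1 + n * K : ℝ) ^ D := by
      calc Real.exp (ε / 2 * (ε * n))
          ≤ Real.exp (ε / 2 * treeAvg n d (fun z => ‖z‖) 0) :=
            Real.exp_le_exp.2 (mul_le_mul_of_nonneg_left hlt.le hlam.le)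
        _ ≤ Real.exp (ε / 2 * treeAvg n d (familySup B₁) 0) :=
            Real.exp_le_exp.2 (mul_le_mul_of_nonneg_left (treeAvg_mono hnorm n d 0) hlam.le)
        _ ≤ _ := exp_treeAvg_le _ _ n d 0
        _ ≤ _ := hpot
        _ ≤ _ := by
            rw [mul_assoc]
            refine mul_le_of_le_one_left (by positivity) (Real.exp_le_one_iff.2 ?_)
            exact mul_nonpos_of_nonneg_of_nonpos hlam.le hzero
    have h2 := Real.log_le_log (Real.exp_pos _) h1
    rw [Real.log_exp, Real.log_mul (by positivity) (by positivity), Real.log_pow, Real.log_exp,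
      Real.log_pow] at h2
    set u : ℝ := 1 + n * K
    have hu : 0 < u := by positivity
    have hlog : Real.log u ≤ 2 * Real.sqrt u := by
      have h3 := Real.log_le_sub_one_of_pos (Real.sqrt_pos.2 hu)
      rw [Real.log_sqrt hu.le] at h3
      linarith
    have h4 : ε ^ 2 / 4 * n ≤ D * (2 * Real.sqrt u) := by
      have h5 := mul_le_mul_of_nonneg_left hlog (Nat.cast_nonneg (α := ℝ) D)
      have h6 : (n : ℝ) * (ε / 2 * θ) ≤ n * (ε / 2 * (ε / 4)) :=
        mul_le_mul_of_nonneg_left (mul_le_mul_of_nonneg_left hθε hlam.le) (by positivity)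
      linarith
    have h7 := pow_le_pow_left₀ (by positivity) h4 2
    rw [mul_pow (D : ℝ), mul_pow (2 : ℝ), Real.sq_sqrt hu.le] at h7
    have h8 : u ≤ n * (1 + K) := by simp only [u]; linarith
    have h9 := mul_le_mul_of_nonneg_left h8 (by positivity : (0 : ℝ) ≤ (D : ℝ) ^ 2 * 2 ^ 2)
    have h10 := mul_lt_mul_of_pos_right hn (show (0 : ℝ) < n by linarith)
    have h11 : 0 < ε ^ 4 * (n : ℝ) := by positivity
    nlinarith [h7, h9, h10, h11]
  refine ⟨θ / 2, by positivity, fun k => ?_⟩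
  choose M hM using fun c : ℕ => hodges (X := X) θ (-1 + c * θ) k k
  obtain ⟨N, hN⟩ := grid_colour (X := X) θ (K + 1) ((range (K + 1)).sup M)
  obtain ⟨c, hc, hshc⟩ := hN B₁ (hsh N)
  have hshc' := hshc.anti (le_sup (f := M) (mem_range.2 hc))
  rcases hM c _ _ (fun q hq => hq.2) hshc' with ⟨x, φ, hm, hu, hl⟩ | ⟨x, φ, hm, hu, hl⟩
  · refine ⟨-1 + c * θ, x, φ, fun i => ?_, fun i => (hm i).2, hu, hl⟩
    obtain ⟨r, hr⟩ := (hm i).1
    exact hr.1
  · refine ⟨-1 + c * θ + θ / 2, x, φ, fun i => ?_, fun i => (hm i).2, fun i j hij => ?_, hl⟩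
    · obtain ⟨r, hr⟩ := (hm i).1
      exact hr.1
    · linarith [hu i j hij]

end Vale.Agent.P125
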