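import Mathlib

/-!
# Finitely supported nearly invariant laws on increasing tuples

For every `L` and `δ` there is a finitely supported probability law on increasing sequences of
naturals whose restrictions to any two equally large sets of positions below `L` are `δ`-close.
-/

namespace Vale.Agent.P125

open Finset Filter Topology
open scoped lp ENNReal

/-- Limit along a fixed non-principal ultrafilter of the naturals. -/
noncomputable def ulim (f : ℕ → ℝ) : ℝ := limUnder (hyperfilter ℕ : Filter ℕ) f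

lemma tendsto_ulim {f : ℕ → ℝ} {M : ℝ} (hf : ∀ a, |f a| ≤ M) :
    Tendsto f (hyperfilter ℕ : Filter ℕ) (𝓝 (ulim f)) := by
  refine tendsto_nhds_limUnder ?_
  obtain ⟨x, -, hx⟩ := (isCompact_Icc (a := -M) (b := M)).ultrafilter_le_nhds
    ((hyperfilter ℕ).map f) (by
      rw [Ultrafilter.coe_map, le_principal_iff, Filter.mem_map]
      exact univ_mem' fun a => abs_le.1 (hf a))
  exact ⟨x, hx⟩

lemma ulim_const (c : ℝ) : ulim (fun _ => c) = c := tendsto_const_nhds.limUnder_eq

/-- Iterated ultrafilter limit of a function of tuples, the last coordinate innermost. -/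
noncomputable def iterLim : (j : ℕ) → ((Fin j → ℕ) → ℝ) → ℝ
  | 0, g => g Fin.elim0
  | j + 1, g => ulim fun a => iterLim j fun t => g (Fin.cons a t)

lemma abs_iterLim_le : ∀ (j : ℕ) (g : (Fin j → ℕ) → ℝ) (M : ℝ), (∀ t, |g t| ≤ M) →
    |iterLim j g| ≤ M := by
  intro j
  induction j with
  | zero => exact fun g M h => h _
  | succ j ih =>
    intro g M h
    have hb : ∀ a, |iterLim j fun t => g (Fin.cons a t)| ≤ M := fun a => ih _ M fun t => h _
    exact le_of_tendsto (tendsto_ulim hb).abs (Eventually.of_forall hb)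

lemma iterLim_add : ∀ (j : ℕ) (g g' : (Fin j → ℕ) → ℝ) (M M' : ℝ), (∀ t, |g t| ≤ M) →
    (∀ t, |g' t| ≤ M') → iterLim j (fun t => g t + g' t) = iterLim j g + iterLim j g' := by
  intro j
  induction j with
  | zero => intros; rfl
  | succ j ih =>
    intro g g' M M' h h'
    have e : ∀ a, (iterLim j fun t => g (Fin.cons a t) + g' (Fin.cons a t)) =
        (iterLim j fun t => g (Fin.cons a t)) + iterLim j fun t => g' (Fin.cons a t) :=
      fun a => ih _ _ M M' (fun t => h _) (fun t => h' _)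
    simp only [iterLim, e]
    exact ((tendsto_ulim fun a => abs_iterLim_le j _ M fun t => h _).add
      (tendsto_ulim fun a => abs_iterLim_le j _ M' fun t => h' _)).limUnder_eq

lemma iterLim_const : ∀ (j : ℕ) (c : ℝ), iterLim j (fun _ => c) = c := by
  intro j
  induction j with
  | zero => intro c; rfl
  | succ j ih => intro c; simp only [iterLim, ih, ulim_const]

lemma iterLim_sum {ι : Type*} (s : Finset ι) (j : ℕ) (g : ι → (Fin j → ℕ) → ℝ) (M : ℝ)
    (h : ∀ i t, |g i t| ≤ M) :
    iterLim j (fun t => ∑ i ∈ s, g i t) = ∑ i ∈ s, iterLim j (g i) := by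
  classical
  induction s using Finset.induction with
  | empty => simp [iterLim_const]
  | insert a s ha ih =>
    simp only [sum_insert ha]
    rw [iterLim_add j (g a) (fun t => ∑ i ∈ s, g i t) M (∑ _i ∈ s, M) (h a)
      (fun t => (abs_sum_le_sum_abs _ _).trans (sum_le_sum fun i _ => h i t)), ih]

lemma iterLim_comp : ∀ (L j : ℕ) (A : Fin j → Fin L), StrictMono A →
    ∀ g : (Fin j → ℕ) → ℝ, iterLim L (fun t => g (t ∘ A)) = iterLim j g := by
  intro L
  induction L with
  | zero =>
    intro j A _ g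
    rcases j with - | j
    · exact congrArg g (funext fun i => i.elim0)
    · exact (A 0).elim0
  | succ L ih =>
    intro j A hA g
    rcases j with - | j
    · have : ∀ t : Fin (L + 1) → ℕ, t ∘ A = Fin.elim0 := fun t => funext fun i => i.elim0
      simp only [this, iterLim_const]
      rfl
    by_cases h0 : A 0 = 0
    · have hne : ∀ i : Fin j, A i.succ ≠ 0 := fun i h =>
        (hA (Fin.succ_pos i)).ne (h0.trans h.symm)
      let A' : Fin j → Fin L := fun i => (A i.succ).pred (hne i)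
      have hA' : StrictMono A' := fun i k hik =>
        Fin.pred_lt_pred_iff.2 (hA (Fin.succ_lt_succ_iff.2 hik))
      simp only [iterLim]
      refine congrArg ulim (funext fun a => ?_)
      rw [← ih j A' hA' (fun t => g (Fin.cons a t))]
      refine congrArg _ (funext fun t => congrArg g (funext fun i => ?_))
      refine Fin.cases ?_ (fun i => ?_) i
      · simp [h0]
      · simp only [Function.comp_apply, Fin.cons_succ, A']
        conv_lhs => rw [← Fin.succ_pred (A i.succ) (hne i)]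
        rw [Fin.cons_succ]
    · have hne : ∀ i : Fin (j + 1), A i ≠ 0 := fun i h => by
        have h1 := hA.monotone (Fin.zero_le i)
        rw [h] at h1
        exact h0 (le_antisymm h1 (Fin.zero_le _))
      let A' : Fin (j + 1) → Fin L := fun i => (A i).pred (hne i)
      have hA' : StrictMono A' := fun i k hik => Fin.pred_lt_pred_iff.2 (hA hik)
      rw [← ih (j + 1) A' hA' g]
      show ulim (fun a => iterLim L fun t => g (Fin.cons a t ∘ A)) = _
      have : ∀ a (t : Fin L → ℕ), Fin.cons a t ∘ A = t ∘ A' := fun a t => funext fun i => by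
        simp only [Function.comp_apply, A']
        conv_lhs => rw [← Fin.succ_pred (A i) (hne i)]
        rw [Fin.cons_succ]
      simp only [this, ulim_const]

lemma iterLim_le : ∀ (j b : ℕ) (g : (Fin j → ℕ) → ℝ) (u M : ℝ), (∀ t, |g t| ≤ M) →
    (∀ t, StrictMono t → (∀ i, b ≤ t i) → g t ≤ u) → iterLim j g ≤ u := by
  intro j
  induction j with
  | zero =>
    intro b g u M _ h
    exact h _ (fun i => i.elim0) fun i => i.elim0
  | succ j ih =>
    intro b g u M hM h
    refine le_of_tendsto (tendsto_ulim fun a => abs_iterLim_le j _ M fun t => hM _) ?_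
    have hev : ∀ᶠ a in (hyperfilter ℕ : Filter ℕ), b ≤ a :=
      Nat.hyperfilter_le_atTop (eventually_ge_atTop b)
    refine hev.mono fun a ha => ih (a + 1) _ u M (fun t => hM _) fun t ht hta => h _ ?_ ?_
    · intro i
      refine Fin.cases ?_ (fun i => ?_) i <;> intro k <;> refine Fin.cases ?_ (fun k => ?_) k <;>
        intro hik <;> simp at hik ⊢
      · have := hta k
        omega
      · exact ht hik
    · intro i
      refine Fin.cases ?_ (fun k => ?_) i
      · simpa using ha
      · have := hta k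
        simp only [Fin.cons_succ]
        omega

/-- Existence of nearly invariant laws. -/
theorem exists_law (L : ℕ) {δ : ℝ} (hδ : 0 < δ) :
    ∃ (R : ℕ) (q : Fin R → ℝ) (z : Fin R → ℕ → ℕ), (∀ r, 0 ≤ q r) ∧ ∑ r, q r = 1 ∧
      (∀ r, StrictMono (z r)) ∧ ∀ (j : ℕ) (A B : Fin j → ℕ), StrictMono A → StrictMono B →
        (∀ i, A i < L) → (∀ i, B i < L) → ∀ (g : (Fin j → ℕ) → ℝ) (M : ℝ), (∀ a, |g a| ≤ M) →
          |∑ r, q r * g (z r ∘ A) - ∑ r, q r * g (z r ∘ B)| ≤ δ * M := by
  classical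
  let ι₀ := (j : Fin (L + 1)) ×
    ({A : Fin j → Fin L // StrictMono A} × {B : Fin j → Fin L // StrictMono B})
  let ι := (π : ι₀) × (Fin π.1 → ℕ)
  let pA : ι₀ → (ℕ → ℕ) → ι := fun π z => ⟨π, fun i => z (π.2.1.1 i)⟩
  let pB : ι₀ → (ℕ → ℕ) → ι := fun π z => ⟨π, fun i => z (π.2.2.1 i)⟩
  let v : (ℕ → ℕ) → lp (fun _ : ι => ℝ) 1 := fun z =>
    ∑ π : ι₀, (lp.single 1 (pA π z) (1 : ℝ) - lp.single 1 (pB π z) (1 : ℝ))
  let Z : Set (ℕ → ℕ) := {z | StrictMono z}
  have hmem : (0 : lp (fun _ : ι => ℝ) 1) ∈ closure (convexHull ℝ (v '' Z)) := by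
    by_contra hnot
    obtain ⟨f, u, hfu, hu⟩ := geometric_hahn_banach_closed_point
      ((convex_convexHull ℝ (v '' Z)).closure) isClosed_closure hnot
    rw [map_zero] at hu
    let g : ι → ℝ := fun i => f (lp.single 1 i (1 : ℝ))
    have hg : ∀ i, |g i| ≤ ‖f‖ := fun i => by
      rw [← Real.norm_eq_abs]
      refine (f.le_opNorm _).trans ?_
      rw [lp.norm_single (by norm_num), norm_one, mul_one]
    let GA : ι₀ → (Fin L → ℕ) → ℝ := fun π t => g ⟨π, t ∘ π.2.1.1⟩
    let GB : ι₀ → (Fin L → ℕ) → ℝ := fun π t => -g ⟨π, t ∘ π.2.2.1⟩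
    let G : ι₀ → (Fin L → ℕ) → ℝ := fun π t => GA π t + GB π t
    have hG : ∀ π t, |G π t| ≤ ‖f‖ + ‖f‖ := fun π t =>
      (abs_add_le _ _).trans (add_le_add (hg _) ((abs_neg _).trans_le (hg _)))
    have h0 : iterLim L (fun t => ∑ π, G π t) = 0 := by
      rw [iterLim_sum _ _ _ _ hG]
      refine sum_eq_zero fun π _ => ?_
      rw [iterLim_add L (GA π) (GB π) ‖f‖ ‖f‖ (fun t => hg _)
        (fun t => (abs_neg _).trans_le (hg _))]
      rw [iterLim_comp L _ π.2.1.1 π.2.1.2 (fun a => g ⟨π, a⟩),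
        iterLim_comp L _ π.2.2.1 π.2.2.2 (fun a => -g ⟨π, a⟩)]
      have := iterLim_add π.1 (fun a => g ⟨π, a⟩) (fun a => -g ⟨π, a⟩) ‖f‖ ‖f‖ (fun a => hg _)
        (fun a => (abs_neg _).trans_le (hg _))
      rw [← this]
      simp only [add_neg_cancel, iterLim_const]
    have hle : iterLim L (fun t => ∑ π, G π t) ≤ u := by
      refine iterLim_le L 0 _ u (∑ _π : ι₀, (‖f‖ + ‖f‖))
        (fun t => (abs_sum_le_sum_abs _ _).trans (sum_le_sum fun π _ => hG π t))
        fun t ht _ => ?_
      let z : ℕ → ℕ := fun i => if h : i < L then t ⟨i, h⟩ else (∑ k, t k) + i + 1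
      have hz : StrictMono z := by
        intro a b hab
        simp only [z]
        split_ifs with ha hb hb
        · exact ht (Fin.mk_lt_mk.2 hab)
        · have := single_le_sum (f := t) (fun k _ => Nat.zero_le _) (mem_univ ⟨a, ha⟩)
          omega
        · omega
        · omega
      have hzt : ∀ i : Fin L, z i = t i := fun i => by simp [z, i.isLt]
      have hlt := hfu (v z) (subset_closure (subset_convexHull ℝ _ ⟨z, hz, rfl⟩))
      refine le_trans (le_of_eq ?_) hlt.le
      simp only [v, map_sum, map_sub, G, GA, GB, g, pA, pB, hzt, ← sub_eq_add_neg]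
      rfl
    linarith
  obtain ⟨w, hw, hwd⟩ := Metric.mem_closure_iff.1 hmem δ hδ
  rw [dist_zero_left] at hwd
  obtain ⟨κ, _, c, y, hc0, hc1, hy, hyw⟩ := mem_convexHull_iff_exists_fintype.1 hw
  choose z hz hzv using hy
  let e := (Fintype.equivFin κ).symm
  refine ⟨Fintype.card κ, fun r => c (e r), fun r => z (e r), fun r => hc0 _,
    (e.sum_comp c).trans hc1, fun r => hz _, fun j A B hA hB hAL hBL g M hgM => ?_⟩
  have hj : j < L + 1 := by
    have := Fintype.card_le_of_injective (fun i => (⟨A i, hAL i⟩ : Fin L))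
      fun a b h => hA.injective (congrArg Fin.val h)
    simp at this
    omega
  let π : ι₀ := ⟨⟨j, hj⟩, ⟨fun i => ⟨A i, hAL i⟩, fun a b h => hA h⟩,
    ⟨fun i => ⟨B i, hBL i⟩, fun a b h => hB h⟩⟩
  let a : κ → Fin j → ℕ := fun k => z k ∘ A
  let b : κ → Fin j → ℕ := fun k => z k ∘ B
  let F : Finset (Fin j → ℕ) := univ.image a ∪ univ.image b
  have hM : 0 ≤ M := (abs_nonneg _).trans (hgM fun _ => 0)
  have hcoord : ∀ s : Fin j → ℕ, (w : ι → ℝ) ⟨π, s⟩ =
      ∑ k, c k * ((if s = a k then 1 else 0) - (if s = b k then 1 else 0)) := by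
    intro s
    rw [← hyw]
    simp only [lp.coeFn_sum, Finset.sum_apply, lp.coeFn_smul, Pi.smul_apply, smul_eq_mul]
    refine sum_congr rfl fun k _ => congrArg _ ?_
    rw [← hzv k]
    simp only [v, lp.coeFn_sum, Finset.sum_apply, lp.coeFn_sub, Pi.sub_apply, lp.single_apply,
      Pi.single_apply]
    rw [sum_eq_single π]
    · have e : ∀ t t' : Fin j → ℕ, ((⟨π, t⟩ : ι) = ⟨π, t'⟩) ↔ t = t' := fun t t' =>
        ⟨fun h => eq_of_heq (Sigma.mk.inj_iff.1 h).2, fun h => h ▸ rfl⟩
      exact congrArg₂ (· - ·) (if_congr (e s _) rfl rfl) (if_congr (e s _) rfl rfl)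
    · intro π' _ hne
      have e : ∀ t', ((⟨π, s⟩ : ι) = ⟨π', t'⟩) → False := fun t' h =>
        hne (Sigma.mk.inj_iff.1 h).1.symm
      rw [if_neg (e _), if_neg (e _), sub_zero]
    · simp
  have hsum : ∑ s ∈ F, g s * (w : ι → ℝ) ⟨π, s⟩ = ∑ k, c k * (g (a k) - g (b k)) := by
    simp only [hcoord, mul_sum]
    rw [sum_comm]
    refine sum_congr rfl fun k _ => ?_
    have ha : a k ∈ F := mem_union_left _ (mem_image_of_mem _ (mem_univ k))
    have hb : b k ∈ F := mem_union_right _ (mem_image_of_mem _ (mem_univ k))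
    simp only [mul_sub, sum_sub_distrib, mul_ite, mul_one, mul_zero, sum_ite_eq', ha, hb, if_true]
    ring
  have hl1 : ∑ s ∈ F, |(w : ι → ℝ) ⟨π, s⟩| ≤ ‖w‖ := by
    have h := lp.sum_rpow_le_norm_rpow (p := 1) (by norm_num) w
      (F.map ⟨fun s => (⟨π, s⟩ : ι), fun s s' h => eq_of_heq (Sigma.mk.inj_iff.1 h).2⟩)
    simp only [ENNReal.toReal_one, Real.rpow_one, sum_map, Real.norm_eq_abs] at h
    exact h
  have hfin : ∑ r, c (e r) * g (z (e r) ∘ A) - ∑ r, c (e r) * g (z (e r) ∘ B) =
      ∑ s ∈ F, g s * (w : ι → ℝ) ⟨π, s⟩ := by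
    rw [hsum, e.sum_comp (fun k => c k * g (z k ∘ A)), e.sum_comp (fun k => c k * g (z k ∘ B)),
      ← sum_sub_distrib]
    exact sum_congr rfl fun k _ => (mul_sub _ _ _).symm
  rw [hfin]
  calc |∑ s ∈ F, g s * (w : ι → ℝ) ⟨π, s⟩| ≤ ∑ s ∈ F, M * |(w : ι → ℝ) ⟨π, s⟩| :=
        (abs_sum_le_sum_abs _ _).trans (sum_le_sum fun s _ => by
          rw [abs_mul]; exact mul_le_mul_of_nonneg_right (hgM s) (abs_nonneg _))
    _ ≤ M * δ := by rw [← mul_sum]; exact mul_le_mul_of_nonneg_left (hl1.trans hwd.le) hM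
    _ = δ * M := mul_comm _ _

end Vale.Agent.P125
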