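import Mathlib
import Vale.Agent.P125.Def

/-!
# Markov type controls the drift of antisymmetric edge functions

A finite reversible chain is given by weighted triples with an involution. Lifting the chain to
edge-count coordinates in a large box shows that Markov type `p` bounds sums of an antisymmetric
edge function along paths.
-/

namespace Vale.Agent.P125

open Finset Filter Topology

variable {V T : Type*} [Fintype V] [Fintype T] [DecidableEq V]
variable {X : Type*} [NormedAddCommGroup X] [NormedSpace ℝ X]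

/-- Stationary mass of a vertex. -/
def mass (src : T → V) (w : T → ℝ) (e : V) : ℝ :=
  ∑ τ, if src τ = e then w τ else 0

/-- Expectation of `φ` of the accumulated sum along an `n`-step path from `e`. -/
noncomputable def walk (src tgt : T → V) (w : T → ℝ) (ω : T → X) (φ : X → ℝ) :
    ℕ → V → X → ℝ
  | 0, _, v => φ v
  | n + 1, e, v => ∑ τ, (if src τ = e then w τ / mass src w e else 0) *
      walk src tgt w ω φ n (tgt τ) (v + ω τ)

omit [Fintype V] in
lemma mass_nonneg (src : T → V) (w : T → ℝ) (hw : ∀ τ, 0 ≤ w τ) (e : V) :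
    0 ≤ mass src w e :=
  sum_nonneg fun τ _ => by split_ifs <;> simp [hw]

omit [Fintype V] in
lemma le_mass (src : T → V) (w : T → ℝ) (hw : ∀ τ, 0 ≤ w τ) (τ : T) :
    w τ ≤ mass src w (src τ) := by
  have h := single_le_sum (f := fun σ => if src σ = src τ then w σ else 0)
    (fun σ _ => by split_ifs <;> simp [hw]) (mem_univ τ)
  simpa [mass] using h

omit [Fintype V] in
lemma mass_mul_div (src : T → V) (w : T → ℝ) (hw : ∀ τ, 0 ≤ w τ) (e : V) (τ : T) :
    mass src w e * (if src τ = e then w τ / mass src w e else 0) =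
      if src τ = e then w τ else 0 := by
  by_cases h : src τ = e
  · subst h
    simp only [if_true]
    rcases eq_or_ne (mass src w (src τ)) 0 with h0 | h0
    · have : w τ = 0 := le_antisymm (h0 ▸ le_mass src w hw τ) (hw τ)
      simp [h0, this]
    · field_simp
  · simp [h]

lemma sum_mass (src : T → V) (w : T → ℝ) : ∑ e, mass src w e = ∑ τ, w τ := by
  unfold mass
  rw [sum_comm]
  simp

lemma walk_shift (src tgt : T → V) (w : T → ℝ) (ω : T → X) (φ : X → ℝ) (a : X) :
    ∀ n e v, walk src tgt w ω (fun u => φ (u - a)) n e v = walk src tgt w ω φ n e (v - a) := by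
  intro n
  induction n with
  | zero => intro e v; rfl
  | succ n ih =>
    intro e v
    simp only [walk, ih]
    exact sum_congr rfl fun τ _ => by rw [add_sub_right_comm]

/-- Markov type for chains indexed by any finite type. -/
lemma markovType_fintype {p K : ℝ}
    (hK : ∀ (N : ℕ) (π : Fin N → ℝ) (P : Matrix (Fin N) (Fin N) ℝ) (f : Fin N → X),
      IsReversibleChain π P → ∀ t : ℕ, 1 ≤ t →
        ∑ i, ∑ j, π i * (P ^ t) i j * ‖f j - f i‖ ^ p ≤
          K ^ p * t * ∑ i, ∑ j, π i * P i j * ‖f j - f i‖ ^ p)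
    {S : Type*} [Fintype S] [DecidableEq S] (π : S → ℝ) (P : Matrix S S ℝ) (f : S → X)
    (h0 : ∀ i, 0 ≤ π i) (h1 : ∑ i, π i = 1) (hP : ∀ i j, 0 ≤ P i j)
    (hP1 : ∀ i, ∑ j, P i j = 1) (hrev : ∀ i j, π i * P i j = π j * P j i)
    (t : ℕ) (ht : 1 ≤ t) :
    ∑ i, ∑ j, π i * (P ^ t) i j * ‖f j - f i‖ ^ p ≤
      K ^ p * t * ∑ i, ∑ j, π i * P i j * ‖f j - f i‖ ^ p := by
  set eq := Fintype.equivFin S
  have hpow : (Matrix.reindexAlgEquiv ℝ ℝ eq P) ^ t = Matrix.reindexAlgEquiv ℝ ℝ eq (P ^ t) :=
    (map_pow _ _ _).symm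
  have h := hK (Fintype.card S) (π ∘ eq.symm) (Matrix.reindexAlgEquiv ℝ ℝ eq P) (f ∘ eq.symm)
    ⟨fun i => h0 _, by simpa using (eq.symm.sum_comp π).trans h1, fun i j => by simpa using hP _ _,
      fun i => by simpa using (eq.symm.sum_comp (P (eq.symm i))).trans (hP1 _),
      fun i j => by simpa using hrev _ _⟩ t ht
  rw [hpow] at h
  simp only [Matrix.coe_reindexAlgEquiv, Matrix.reindex_apply, Matrix.submatrix_apply,
    Function.comp_apply] at h
  have e1 : ∀ g : S → S → ℝ, ∑ i, ∑ j, g (eq.symm i) (eq.symm j) = ∑ i, ∑ j, g i j := by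
    intro g
    rw [← eq.symm.sum_comp (fun i => ∑ j, g i j)]
    exact sum_congr rfl fun i _ => eq.symm.sum_comp (g (eq.symm i))
  rw [e1 (fun i j => π i * (P ^ t) i j * ‖f j - f i‖ ^ p),
    e1 (fun i j => π i * P i j * ‖f j - f i‖ ^ p)] at h
  exact h

/-- The lifting bound. -/
theorem lift_bound {p K : ℝ} (hp : 0 < p)
    (hK : ∀ (N : ℕ) (π : Fin N → ℝ) (P : Matrix (Fin N) (Fin N) ℝ) (f : Fin N → X),
      IsReversibleChain π P → ∀ t : ℕ, 1 ≤ t →
        ∑ i, ∑ j, π i * (P ^ t) i j * ‖f j - f i‖ ^ p ≤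
          K ^ p * t * ∑ i, ∑ j, π i * P i j * ‖f j - f i‖ ^ p)
    (hK0 : 0 ≤ K)
    (w : T → ℝ) (hw : ∀ τ, 0 ≤ w τ) (hw1 : ∑ τ, w τ = 1) (src tgt : T → V) (bar : T → T)
    (hbar : ∀ τ, bar (bar τ) = τ) (hwb : ∀ τ, w (bar τ) = w τ)
    (hsb : ∀ τ, src (bar τ) = tgt τ) (ω : T → X) (hω : ∀ τ, ω (bar τ) = -ω τ)
    (n : ℕ) (hn : 1 ≤ n) :
    ∑ e, mass src w e * walk src tgt w ω (fun v => ‖v‖ ^ p) n e 0 ≤
      K ^ p * n * ∑ τ, w τ * ‖ω τ‖ ^ p := by
  classical
  have htb : ∀ τ, tgt (bar τ) = src τ := fun τ => by rw [← hsb, hbar]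
  set A := ∑ e, mass src w e * walk src tgt w ω (fun v => ‖v‖ ^ p) n e 0 with hA
  set B := K ^ p * n * ∑ τ, w τ * ‖ω τ‖ ^ p with hB
  suffices hmain : ∀ r : ℕ, ((r : ℝ) / (r + 2 * n)) ^ Fintype.card T * A ≤ B by
    have h1 : Tendsto (fun r : ℕ => ((r : ℝ) / (r + 2 * n)) ^ Fintype.card T * A) atTop
        (𝓝 ((1 : ℝ) ^ Fintype.card T * A)) :=
      ((tendsto_natCast_div_add_atTop (2 * (n : ℝ))).pow _).mul_const A
    rw [one_pow, one_mul] at h1
    exact le_of_tendsto h1 (Eventually.of_forall hmain)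
  intro r
  set R := r + 2 * n with hR
  have hRpos : 0 < R := by omega
  haveI : Nonempty (Fin R) := ⟨⟨0, hRpos⟩⟩
  set c : ℝ := ((Fintype.card (T → Fin R) : ℕ) : ℝ)⁻¹ with hc
  have hc0 : 0 ≤ c := by positivity
  set π : V × (T → Fin R) → ℝ := fun s => mass src w s.1 * c with hπ
  let δ : T → T → ℤ := fun τ σ => (if σ = τ then 1 else 0) - (if σ = bar τ then 1 else 0)
  let Ok : (T → Fin R) → T → Prop := fun k τ => ∀ σ, 0 ≤ (k σ : ℤ) + δ τ σ ∧
    (k σ : ℤ) + δ τ σ < R
  let nxt : V × (T → Fin R) → T → V × (T → Fin R) := fun s τ =>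
    if h : Ok s.2 τ then
      (tgt τ, fun σ => ⟨((s.2 σ : ℤ) + δ τ σ).toNat, by
        have := h σ
        omega⟩)
    else s
  have hδ : ∀ τ σ, δ (bar τ) σ = - δ τ σ := fun τ σ => by simp [δ, hbar]
  have hδb : ∀ τ σ, -1 ≤ δ τ σ ∧ δ τ σ ≤ 1 := fun τ σ => by
    simp only [δ]; split_ifs <;> norm_num
  have hnxt : ∀ s τ, Ok s.2 τ → (nxt s τ).1 = tgt τ ∧
      ∀ σ, ((nxt s τ).2 σ : ℤ) = s.2 σ + δ τ σ := by
    intro s τ h
    simp only [nxt, dif_pos h, true_and]
    intro σ
    exact Int.toNat_of_nonneg (h σ).1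
  have hhold : ∀ s τ, ¬ Ok s.2 τ → nxt s τ = s := fun s τ h => dif_neg h
  let P : Matrix (V × (T → Fin R)) (V × (T → Fin R)) ℝ := fun s s' =>
    if mass src w s.1 = 0 then (if s = s' then 1 else 0) else
      ∑ τ, (if src τ = s.1 then w τ / mass src w s.1 else 0) * (if nxt s τ = s' then 1 else 0)
  have hflow : ∀ s s', π s * P s s' =
      c * ∑ τ, if src τ = s.1 ∧ nxt s τ = s' then w τ else 0 := by
    intro s s'
    simp only [π, P]
    by_cases h0 : mass src w s.1 = 0
    · rw [h0]
      simp only [zero_mul]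
      symm
      apply mul_eq_zero_of_right
      refine sum_eq_zero fun τ _ => ?_
      split_ifs with h
      · exact le_antisymm (h0 ▸ h.1 ▸ le_mass src w hw τ) (hw τ)
      · rfl
    · rw [if_neg h0, mul_comm (mass src w s.1) c, mul_assoc, mul_sum]
      refine congrArg _ (sum_congr rfl fun τ _ => ?_)
      rw [← mul_assoc, mass_mul_div src w hw]
      by_cases ha : src τ = s.1 <;> by_cases hb : nxt s τ = s' <;> simp [ha, hb]
  have hback : ∀ s s' τ, s ≠ s' → src τ = s.1 → nxt s τ = s' →
      src (bar τ) = s'.1 ∧ nxt s' (bar τ) = s := by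
    intro s s' τ hne hs hnx
    by_cases hok : Ok s.2 τ
    · obtain ⟨e1, e2⟩ := hnxt s τ hok
      rw [hnx] at e1 e2
      refine ⟨(hsb τ).trans e1.symm, ?_⟩
      have hok' : Ok s'.2 (bar τ) := by
        intro σ
        rw [e2 σ, hδ]
        have := (s.2 σ).isLt
        omega
      obtain ⟨f1, f2⟩ := hnxt s' (bar τ) hok'
      refine Prod.ext (f1.trans ((htb τ).trans hs)) (funext fun σ => Fin.ext ?_)
      have := f2 σ
      rw [e2 σ, hδ] at this
      omega
    · rw [hhold s τ hok] at hnx
      exact absurd hnx hne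
  have hrev : ∀ s s', π s * P s s' = π s' * P s' s := by
    intro s s'
    rcases eq_or_ne s s' with rfl | hne
    · rfl
    rw [hflow, hflow]
    refine congrArg _ ?_
    refine Fintype.sum_equiv (Function.Involutive.toPerm bar hbar) _ _ fun τ => ?_
    show _ = if src (bar τ) = s'.1 ∧ nxt s' (bar τ) = s then w (bar τ) else 0
    rw [hwb]
    refine if_congr ⟨fun h => ?_, fun h => ?_⟩ rfl rfl
    · exact hback s s' τ hne h.1 h.2
    · simpa [hbar] using hback s' s (bar τ) hne.symm h.1 h.2
  have hP0 : ∀ s s', 0 ≤ P s s' := by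
    intro s s'
    simp only [P]
    split_ifs
    · exact zero_le_one
    · exact le_rfl
    · refine sum_nonneg fun τ _ => mul_nonneg ?_ (by split_ifs <;> norm_num)
      split_ifs
      · exact div_nonneg (hw τ) (mass_nonneg src w hw _)
      · exact le_rfl
  have hrow : ∀ s (g : V × (T → Fin R) → ℝ), mass src w s.1 ≠ 0 → ∑ s', P s s' * g s' =
      ∑ τ, (if src τ = s.1 then w τ / mass src w s.1 else 0) * g (nxt s τ) := by
    intro s g h0
    simp only [P, if_neg h0, sum_mul]
    rw [sum_comm]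
    refine sum_congr rfl fun τ _ => ?_
    rw [sum_eq_single (nxt s τ)]
    · simp
    · intro b _ hb; simp [hb.symm]
    · simp
  have hP1 : ∀ s, ∑ s', P s s' = 1 := by
    intro s
    by_cases h0 : mass src w s.1 = 0
    · simp [P, h0]
    · have h := hrow s (fun _ => 1) h0
      simp only [mul_one] at h
      rw [h]
      have e : ∀ τ, (if src τ = s.1 then w τ / mass src w s.1 else 0) =
          (if src τ = s.1 then w τ else 0) / mass src w s.1 := by
        intro τ; split_ifs <;> simp
      simp only [e, ← sum_div]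
      exact div_self h0
  have hcard : c * (Fintype.card (T → Fin R) : ℕ) = 1 :=
    inv_mul_cancel₀ (by exact_mod_cast Fintype.card_ne_zero)
  have hπ1 : ∑ s, π s = 1 := by
    simp only [π, Fintype.sum_prod_type, sum_const, card_univ, nsmul_eq_mul]
    rw [← mul_sum, ← sum_mul, sum_mass, hw1]
    rw [mul_comm]; simpa using hcard
  let f : V × (T → Fin R) → X := fun s => (1 / 2 : ℝ) • ∑ σ, ((s.2 σ : ℕ) : ℝ) • ω σ
  have hfstep : ∀ s τ, Ok s.2 τ → f (nxt s τ) = f s + ω τ := by
    intro s τ h
    have e : ∀ σ, (((nxt s τ).2 σ : ℕ) : ℝ) = ((s.2 σ : ℕ) : ℝ) + (δ τ σ : ℝ) := by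
      intro σ
      have := (hnxt s τ h).2 σ
      exact_mod_cast this
    simp only [f, e, add_smul, sum_add_distrib, smul_add]
    refine congrArg _ ?_
    simp only [δ, Int.cast_sub, Int.cast_ite, Int.cast_one, Int.cast_zero, sub_smul, ite_smul,
      one_smul, zero_smul, sum_sub_distrib, sum_ite_eq', mem_univ, if_true, hω]
    rw [sub_neg_eq_add, ← two_smul ℝ, smul_smul]
    norm_num
  have hpath : ∀ (m : ℕ) s (φ : X → ℝ), mass src w s.1 ≠ 0 →
      (∀ σ, m ≤ (s.2 σ : ℕ) ∧ (s.2 σ : ℕ) + m < R) →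
      ∑ s', (P ^ m) s s' * φ (f s') = walk src tgt w ω φ m s.1 (f s) := by
    intro m
    induction m with
    | zero => intro s φ _ _; simp [walk, Matrix.one_apply]
    | succ m ih =>
      intro s φ h0 hm
      simp only [pow_succ', Matrix.mul_apply, sum_mul, mul_assoc]
      rw [sum_comm]
      simp only [← mul_sum]
      rw [hrow s _ h0, walk]
      refine sum_congr rfl fun τ _ => ?_
      by_cases hs : src τ = s.1
      swap
      · simp [hs]
      by_cases hwτ : w τ = 0
      · simp [hwτ]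
      refine congrArg _ ?_
      have hok : Ok s.2 τ := by
        intro σ
        have := hm σ
        have := hδb τ σ
        omega
      obtain ⟨e1, e2⟩ := hnxt s τ hok
      have hne : mass src w (tgt τ) ≠ 0 := by
        intro hz
        have h := le_mass src w hw (bar τ)
        rw [hwb, hsb, hz] at h
        exact hwτ (le_antisymm h (hw τ))
      rw [ih (nxt s τ) φ (e1.symm ▸ hne) (fun σ => by
        have := hm σ
        have := hδb τ σ
        have := e2 σ
        omega), e1, hfstep s τ hok]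
  have hMT := markovType_fintype hK π P f
    (fun s => mul_nonneg (mass_nonneg src w hw _) hc0) hπ1 hP0 hP1 hrev n hn
  have hRHS : ∑ s, ∑ s', π s * P s s' * ‖f s' - f s‖ ^ p ≤ ∑ τ, w τ * ‖ω τ‖ ^ p := by
    calc ∑ s, ∑ s', π s * P s s' * ‖f s' - f s‖ ^ p
        = c * ∑ s : V × (T → Fin R), ∑ τ,
            (if src τ = s.1 then w τ * ‖f (nxt s τ) - f s‖ ^ p else 0) := by
          rw [mul_sum]
          refine sum_congr rfl fun s _ => ?_
          simp only [hflow, mul_assoc, sum_mul, ← mul_sum]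
          refine congrArg _ ?_
          rw [sum_comm]
          refine sum_congr rfl fun τ _ => ?_
          by_cases hs : src τ = s.1 <;> simp [hs, ite_mul]
      _ ≤ c * ∑ s : V × (T → Fin R), ∑ τ, (if src τ = s.1 then w τ * ‖ω τ‖ ^ p else 0) := by
          refine mul_le_mul_of_nonneg_left (sum_le_sum fun s _ => sum_le_sum fun τ _ => ?_) hc0
          split_ifs with hs
          · refine mul_le_mul_of_nonneg_left ?_ (hw τ)
            by_cases hok : Ok s.2 τ
            · rw [hfstep s τ hok, add_sub_cancel_left]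
            · rw [hhold s τ hok, sub_self, norm_zero, Real.zero_rpow hp.ne']
              positivity
          · exact le_rfl
      _ = ∑ τ, w τ * ‖ω τ‖ ^ p := by
          rw [sum_comm, mul_sum]
          refine sum_congr rfl fun τ _ => ?_
          rw [Fintype.sum_prod_type, sum_eq_single (src τ)]
          · simp only [if_true, sum_const, card_univ, nsmul_eq_mul]
            rw [← mul_assoc, hcard, one_mul]
          · intro b _ hb; simp [hb.symm]
          · simp
  have hPn : ∀ (m : ℕ) s s', 0 ≤ (P ^ m) s s' := by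
    intro m
    induction m with
    | zero => intro s s'; simp only [pow_zero, Matrix.one_apply]; split_ifs <;> norm_num
    | succ m ih =>
      intro s s'
      rw [pow_succ', Matrix.mul_apply]
      exact sum_nonneg fun i _ => mul_nonneg (hP0 _ _) (ih _ _)
  set I : Finset (T → Fin R) := univ.filter
    (fun k => ∀ σ, n ≤ (k σ : ℕ) ∧ (k σ : ℕ) + n < R) with hI
  have hIcard : r ^ Fintype.card T ≤ #I := by
    have h := card_le_card_of_injOn (s := (univ : Finset (T → Fin r))) (t := I)
      (fun k σ => (⟨(k σ : ℕ) + n, by have := (k σ).isLt; omega⟩ : Fin R))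
      (fun k _ => by
        simp only [hI, coe_filter, mem_univ, true_and, Set.mem_ofPred_eq]
        intro σ
        have := (k σ).isLt
        omega)
      (fun k _ k' _ h => funext fun σ => Fin.ext (by
        have := congrArg Fin.val (congrFun h σ)
        simpa using this))
    simpa using h
  have hLHS : c * (#I : ℝ) * A ≤ ∑ s, ∑ s', π s * (P ^ n) s s' * ‖f s' - f s‖ ^ p := by
    calc c * (#I : ℝ) * A
        = ∑ s ∈ (univ : Finset V) ×ˢ I,
            c * (mass src w s.1 * walk src tgt w ω (fun v => ‖v‖ ^ p) n s.1 0) := by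
          rw [sum_product, hA, mul_sum]
          simp only [sum_const, nsmul_eq_mul]
          exact sum_congr rfl fun e _ => by ring
      _ = ∑ s ∈ (univ : Finset V) ×ˢ I, ∑ s', π s * (P ^ n) s s' * ‖f s' - f s‖ ^ p := by
          refine sum_congr rfl fun s hs => ?_
          simp only [π, mul_assoc, ← mul_sum]
          by_cases h0 : mass src w s.1 = 0
          · simp [h0]
          have hm : ∀ σ, n ≤ (s.2 σ : ℕ) ∧ (s.2 σ : ℕ) + n < R := by
            have := (mem_product.1 hs).2
            simpa [hI] using this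
          rw [hpath n s (fun u => ‖u - f s‖ ^ p) h0 hm,
            walk_shift src tgt w ω (fun v => ‖v‖ ^ p) (f s), sub_self]
          ring
      _ ≤ _ := by
          refine sum_le_univ_sum_of_nonneg fun s => sum_nonneg fun s' _ => ?_
          exact mul_nonneg (mul_nonneg (mul_nonneg (mass_nonneg src w hw _) hc0) (hPn _ _ _))
            (by positivity)
  have hKn : (0 : ℝ) ≤ K ^ p * n := by positivity
  have hfin : c * (#I : ℝ) * A ≤ B :=
    hLHS.trans (hMT.trans (mul_le_mul_of_nonneg_left hRHS hKn))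
  rcases le_or_gt A 0 with hA0 | hA0
  · calc ((r : ℝ) / (r + 2 * n)) ^ Fintype.card T * A ≤ 0 :=
        mul_nonpos_of_nonneg_of_nonpos (by positivity) hA0
      _ ≤ B := mul_nonneg hKn (sum_nonneg fun τ _ => mul_nonneg (hw τ) (by positivity))
  · refine le_trans (mul_le_mul_of_nonneg_right ?_ hA0.le) hfin
    have hRc : ((Fintype.card (T → Fin R) : ℕ) : ℝ) = ((r : ℝ) + 2 * n) ^ Fintype.card T := by
      simp [hR]
    rw [hc, hRc, div_pow, div_eq_inv_mul]
    refine mul_le_mul_of_nonneg_left ?_ (by positivity)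
    exact_mod_cast hIcard

end Vale.Agent.P125
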