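import Mathlib

/-!
# Averaged patterns of vectors under a nearly invariant law

A `Model` is a sequence of vectors of norm at most one, a law on increasing sequences of naturals
that is nearly invariant, and a gap: functionals separate the values below a cut from those above.
-/

namespace Vale.Agent.P125

open Finset

variable {X : Type*} [NormedAddCommGroup X] [NormedSpace ℝ X]

/-- Vectors, a law on increasing label sequences, its invariance, and a separation gap `θ`. -/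
structure Model (X : Type*) [NormedAddCommGroup X] [NormedSpace ℝ X] where
  x : ℕ → X
  R : ℕ
  wt : Fin R → ℝ
  z : Fin R → ℕ → ℕ
  L : ℕ
  δ : ℝ
  θ : ℝ
  hx : ∀ a, ‖x a‖ ≤ 1
  hwt : ∀ r, 0 ≤ wt r
  hwt1 : ∑ r, wt r = 1
  hδ : 0 ≤ δ
  inv : ∀ (j : ℕ) (A B : Fin j → ℕ), StrictMono A → StrictMono B →
    (∀ i, A i < L) → (∀ i, B i < L) → ∀ (g : (Fin j → ℕ) → ℝ) (M : ℝ), (∀ a, |g a| ≤ M) →
      |∑ r, wt r * g (z r ∘ A) - ∑ r, wt r * g (z r ∘ B)| ≤ δ * M
  hgap : ∀ r (m : ℕ), 0 < m → 2 * m ≤ L → ∃ (c : ℝ) (ψ : StrongDual ℝ X), ‖ψ‖ ≤ 1 ∧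
    ∀ l < m, ψ (x (z r l)) ≤ c ∧ c + θ ≤ ψ (x (z r (m + l)))

/-- Weighted `L^p` norm of a family of vectors. -/
noncomputable def lpMean {R : ℕ} (wt : Fin R → ℝ) (p : ℝ) (v : Fin R → X) : ℝ :=
  (∑ r, wt r * ‖v r‖ ^ p) ^ (1 / p)

/-- Total absolute value of the first `K` coefficients. -/
def absSum (K : ℕ) (c : ℕ → ℝ) : ℝ := ∑ i ∈ range K, |c i|

lemma absSum_nonneg (K : ℕ) (c : ℕ → ℝ) : 0 ≤ absSum K c :=
  sum_nonneg fun _ _ => abs_nonneg _

section lpMean

variable {R : ℕ} {wt : Fin R → ℝ} {p : ℝ}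

omit [NormedSpace ℝ X] in
lemma lpMean_nonneg (hw : ∀ r, 0 ≤ wt r) (v : Fin R → X) : 0 ≤ lpMean wt p v :=
  Real.rpow_nonneg (sum_nonneg fun r _ => mul_nonneg (hw r) (by positivity)) _

omit [NormedSpace ℝ X] in
lemma lpMean_rpow (hw : ∀ r, 0 ≤ wt r) (hp : 0 < p) (v : Fin R → X) :
    lpMean wt p v ^ p = ∑ r, wt r * ‖v r‖ ^ p := by
  rw [lpMean, ← Real.rpow_mul (sum_nonneg fun r _ => mul_nonneg (hw r) (by positivity)),
    one_div, inv_mul_cancel₀ hp.ne', Real.rpow_one]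

omit [NormedSpace ℝ X] in
lemma lpMean_le (hw : ∀ r, 0 ≤ wt r) (hw1 : ∑ r, wt r = 1) (hp : 0 < p) (v : Fin R → X) (B : ℝ)
    (hB : 0 ≤ B) (h : ∀ r, ‖v r‖ ≤ B) : lpMean wt p v ≤ B := by
  have h1 : ∑ r, wt r * ‖v r‖ ^ p ≤ B ^ p := by
    calc ∑ r, wt r * ‖v r‖ ^ p ≤ ∑ r, wt r * B ^ p := sum_le_sum fun r _ =>
          mul_le_mul_of_nonneg_left (Real.rpow_le_rpow (norm_nonneg _) (h r) hp.le) (hw r)
      _ = B ^ p := by rw [← sum_mul, hw1, one_mul]
  calc lpMean wt p v ≤ (B ^ p) ^ (1 / p) :=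
        Real.rpow_le_rpow (sum_nonneg fun r _ => mul_nonneg (hw r) (by positivity)) h1
          (by positivity)
    _ = B := by rw [← Real.rpow_mul hB, mul_one_div, div_self hp.ne', Real.rpow_one]

omit [NormedSpace ℝ X] in
lemma le_lpMean (hw : ∀ r, 0 ≤ wt r) (hw1 : ∑ r, wt r = 1) (hp : 0 < p) (v : Fin R → X) (B : ℝ)
    (hB : 0 ≤ B) (h : ∀ r, B ≤ ‖v r‖) : B ≤ lpMean wt p v := by
  have h1 : B ^ p ≤ ∑ r, wt r * ‖v r‖ ^ p := by
    calc B ^ p = ∑ r, wt r * B ^ p := by rw [← sum_mul, hw1, one_mul]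
      _ ≤ _ := sum_le_sum fun r _ =>
          mul_le_mul_of_nonneg_left (Real.rpow_le_rpow hB (h r) hp.le) (hw r)
  calc B = (B ^ p) ^ (1 / p) := by
        rw [← Real.rpow_mul hB, mul_one_div, div_self hp.ne', Real.rpow_one]
    _ ≤ _ := Real.rpow_le_rpow (by positivity) h1 (by positivity)

omit [NormedSpace ℝ X] in
lemma lpMean_add (hw : ∀ r, 0 ≤ wt r) (hp : 1 ≤ p) (u v : Fin R → X) :
    lpMean wt p (fun r => u r + v r) ≤ lpMean wt p u + lpMean wt p v := by
  have hp0 : 0 < p := by linarith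
  have e : ∀ r (s : ℝ), 0 ≤ s → wt r * s ^ p = (wt r ^ (1 / p) * s) ^ p := fun r s hs => by
    rw [Real.mul_rpow (Real.rpow_nonneg (hw r) _) hs, ← Real.rpow_mul (hw r), one_div,
      inv_mul_cancel₀ hp0.ne', Real.rpow_one]
  calc lpMean wt p (fun r => u r + v r)
      ≤ (∑ r, wt r * (‖u r‖ + ‖v r‖) ^ p) ^ (1 / p) := by
        refine Real.rpow_le_rpow (sum_nonneg fun r _ => mul_nonneg (hw r) (by positivity)) ?_
          (by positivity)
        exact sum_le_sum fun r _ => mul_le_mul_of_nonneg_left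
          (Real.rpow_le_rpow (norm_nonneg _) (norm_add_le _ _) hp0.le) (hw r)
    _ = (∑ r, (wt r ^ (1 / p) * ‖u r‖ + wt r ^ (1 / p) * ‖v r‖) ^ p) ^ (1 / p) := by
        congr 1
        refine sum_congr rfl fun r _ => ?_
        rw [e r _ (by positivity), mul_add]
    _ ≤ (∑ r, (wt r ^ (1 / p) * ‖u r‖) ^ p) ^ (1 / p) +
          (∑ r, (wt r ^ (1 / p) * ‖v r‖) ^ p) ^ (1 / p) :=
        Real.Lp_add_le_of_nonneg univ hp
          (fun r _ => mul_nonneg (Real.rpow_nonneg (hw r) _) (norm_nonneg _))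
          (fun r _ => mul_nonneg (Real.rpow_nonneg (hw r) _) (norm_nonneg _))
    _ = _ := by
        simp only [lpMean, ← e _ _ (norm_nonneg _)]

lemma lpMean_smul (hw : ∀ r, 0 ≤ wt r) (hp : 0 < p) (a : ℝ) (v : Fin R → X) :
    lpMean wt p (fun r => a • v r) = |a| * lpMean wt p v := by
  have h0 : 0 ≤ ∑ r, wt r * ‖v r‖ ^ p :=
    sum_nonneg fun r _ => mul_nonneg (hw r) (by positivity)
  simp only [lpMean, norm_smul, Real.norm_eq_abs, Real.mul_rpow (abs_nonneg a) (norm_nonneg _)]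
  simp only [mul_left_comm _ (|a| ^ p), ← mul_sum]
  rw [Real.mul_rpow (by positivity) h0, ← Real.rpow_mul (abs_nonneg a), mul_one_div,
    div_self hp.ne', Real.rpow_one]

lemma lpMean_sum (hw : ∀ r, 0 ≤ wt r) (hp : 1 ≤ p) {ι : Type*} (s : Finset ι)
    (v : ι → Fin R → X) :
    lpMean wt p (fun r => ∑ i ∈ s, v i r) ≤ ∑ i ∈ s, lpMean wt p (v i) := by
  classical
  have hp0 : 0 < p := by linarith
  induction s using Finset.induction with
  | empty => simp [lpMean, Real.zero_rpow hp0.ne', Real.zero_rpow (inv_ne_zero hp0.ne')]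
  | insert a s ha ih =>
    simp only [sum_insert ha]
    exact (lpMean_add hw hp (v a) _).trans (by linarith)

end lpMean

namespace Model

variable (Mo : Model X)

/-- Average of the vectors with labels in block `b` of length `m`. -/
noncomputable def blockVec (m : ℕ) (a : ℕ → ℕ) (b : ℕ) : X :=
  (m : ℝ)⁻¹ • ∑ l ∈ range m, Mo.x (a (b * m + l))

lemma norm_blockVec (m : ℕ) (a : ℕ → ℕ) (b : ℕ) : ‖Mo.blockVec m a b‖ ≤ 1 := by
  rw [blockVec, norm_smul, norm_inv, Real.norm_natCast]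
  have h := (norm_sum_le (range m) fun l => Mo.x (a (b * m + l))).trans
    (sum_le_sum fun l _ => Mo.hx (a (b * m + l)))
  simp only [sum_const, card_range, nsmul_eq_mul, mul_one] at h
  rcases Nat.eq_zero_or_pos m with rfl | hm
  · simp
  · rw [inv_mul_le_iff₀ (by exact_mod_cast hm), mul_one]
    exact h

lemma norm_comb (m : ℕ) (K : ℕ) (c : ℕ → ℝ) (P : ℕ → ℕ) (a : ℕ → ℕ) :
    ‖∑ i ∈ range K, c i • Mo.blockVec m a (P i)‖ ≤ absSum K c := by
  refine (norm_sum_le _ _).trans (sum_le_sum fun i _ => ?_)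
  rw [norm_smul, Real.norm_eq_abs]
  exact mul_le_of_le_one_right (abs_nonneg _) (Mo.norm_blockVec _ _ _)

/-- The pattern `c` on block positions `P`, as a random vector. -/
noncomputable def vec (m K : ℕ) (P : ℕ → ℕ) (c : ℕ → ℝ) : Fin Mo.R → X :=
  fun r => ∑ i ∈ range K, c i • Mo.blockVec m (Mo.z r) (P i)

/-- The size of the pattern `c` in blocks of length `m`. -/
noncomputable def size (p : ℝ) (m K : ℕ) (c : ℕ → ℝ) : ℝ :=
  lpMean Mo.wt p (Mo.vec m K id c)

lemma size_nonneg (p : ℝ) (m K : ℕ) (c : ℕ → ℝ) : 0 ≤ Mo.size p m K c :=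
  lpMean_nonneg Mo.hwt _

lemma size_le (p : ℝ) (hp : 0 < p) (m K : ℕ) (c : ℕ → ℝ) : Mo.size p m K c ≤ absSum K c :=
  lpMean_le Mo.hwt Mo.hwt1 hp _ _ (absSum_nonneg K c) fun _ => Mo.norm_comb _ _ _ _ _

lemma block_index (m : ℕ) {i k : ℕ} (hi : i < k) : i % m + (i / m) * m < k := by
  have := Nat.div_add_mod i m
  rw [mul_comm] at this
  omega

lemma place_strictMono (m K : ℕ) (hm : 0 < m) (P : ℕ → ℕ)
    (hP : ∀ i j, i < j → j < K → P i < P j) :
    StrictMono fun k : Fin (K * m) => P (k.val / m) * m + k.val % m := by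
  intro a b hab
  have hab' : a.val < b.val := hab
  have ha := Nat.div_add_mod a.val m
  have hb := Nat.div_add_mod b.val m
  have hbK : b.val / m < K := Nat.div_lt_of_lt_mul (lt_of_lt_of_eq b.isLt (mul_comm K m))
  rcases lt_or_eq_of_le (Nat.div_le_div_right (c := m) hab'.le) with h | h
  · have h2 : P (a.val / m) + 1 ≤ P (b.val / m) := hP _ _ h hbK
    have h3 := Nat.mul_le_mul_right m h2
    have h4 := Nat.mod_lt a.val hm
    simp only
    rw [add_mul, one_mul] at h3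
    omega
  · simp only
    rw [← h]
    rw [← h] at hb
    omega

lemma place_lt (m K Lb : ℕ) (hm : 0 < m) (P : ℕ → ℕ) (hP : ∀ i < K, P i < Lb)
    (hL : Lb * m ≤ Mo.L) (k : Fin (K * m)) : P (k.val / m) * m + k.val % m < Mo.L := by
  have hkK : k.val / m < K := Nat.div_lt_of_lt_mul (lt_of_lt_of_eq k.isLt (mul_comm K m))
  have h2 : P (k.val / m) + 1 ≤ Lb := hP _ hkK
  have h3 := Nat.mul_le_mul_right m h2
  have h4 := Nat.mod_lt k.val hm
  rw [add_mul, one_mul] at h3
  omega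

/-- Relabelling of the blocks changes every expectation by at most `δ M`. -/
lemma transfer (m K Lb : ℕ) (hm : 0 < m) (P : ℕ → ℕ) (hP : ∀ i j, i < j → j < K → P i < P j)
    (hPb : ∀ i < K, P i < Lb) (hL : Lb * m ≤ Mo.L) (hK : K * m ≤ Mo.L)
    (G : (ℕ → X) → ℝ) (hG : ∀ u v, (∀ i < K, u i = v i) → G u = G v) (M : ℝ)
    (hM : ∀ a : ℕ → ℕ, |G (fun i => Mo.blockVec m a i)| ≤ M) :
    |∑ r, Mo.wt r * G (fun i => Mo.blockVec m (Mo.z r) (P i)) -
      ∑ r, Mo.wt r * G (fun i => Mo.blockVec m (Mo.z r) i)| ≤ Mo.δ * M := by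
  let ext' : (Fin (K * m) → ℕ) → ℕ → ℕ := fun a i => if h : i < K * m then a ⟨i, h⟩ else 0
  let g : (Fin (K * m) → ℕ) → ℝ := fun a => G fun i => Mo.blockVec m (ext' a) i
  have h := Mo.inv (K * m) (fun k => P (k.val / m) * m + k.val % m) (fun k => k.val)
    (place_strictMono m K hm P hP) Fin.val_strictMono (fun k => Mo.place_lt m K Lb hm P hPb hL k)
    (fun k => lt_of_lt_of_le k.isLt hK) g M (fun a => hM _)
  have hidx : ∀ i < K, ∀ l < m, i * m + l < K * m := fun i hi l hl => by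
    have := Nat.mul_le_mul_right m (Nat.succ_le_of_lt hi)
    rw [Nat.succ_mul] at this
    omega
  have e1 : ∀ r, g (Mo.z r ∘ fun k : Fin (K * m) => P (k.val / m) * m + k.val % m) =
      G (fun i => Mo.blockVec m (Mo.z r) (P i)) := fun r => hG _ _ fun i hi => by
    simp only [blockVec]
    refine congrArg _ (sum_congr rfl fun l hl => ?_)
    have hl' := mem_range.1 hl
    simp only [ext', dif_pos (hidx i hi l hl'), Function.comp_apply]
    rw [show (i * m + l) / m = i by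
      rw [add_comm, Nat.add_mul_div_right _ _ hm, Nat.div_eq_of_lt hl', zero_add],
      show (i * m + l) % m = l by
      rw [add_comm, Nat.add_mul_mod_self_right, Nat.mod_eq_of_lt hl']]
  have e2 : ∀ r, g (Mo.z r ∘ fun k : Fin (K * m) => k.val) =
      G (fun i => Mo.blockVec m (Mo.z r) i) := fun r => hG _ _ fun i hi => by
    simp only [blockVec]
    refine congrArg _ (sum_congr rfl fun l hl => ?_)
    simp only [ext', dif_pos (hidx i hi l (mem_range.1 hl)), Function.comp_apply]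
  simpa only [e1, e2] using h

lemma rpow_root_le {p A B η : ℝ} (hp : 1 ≤ p) (hA : 0 ≤ A) (hB : 0 ≤ B) (hη : 0 ≤ η)
    (h : A ≤ B + η) : A ^ (1 / p) ≤ B ^ (1 / p) + η ^ (1 / p) :=
  (Real.rpow_le_rpow hA h (by positivity)).trans
    (Real.rpow_add_le_add_rpow hB hη (by positivity) (by rw [div_le_one (by linarith)]; exact hp))

/-- Placing a pattern elsewhere changes its size by at most `δ^(1/p)` times its total mass. -/
lemma place (p : ℝ) (hp : 1 ≤ p) (m K Lb : ℕ) (hm : 0 < m) (P : ℕ → ℕ)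
    (hP : ∀ i j, i < j → j < K → P i < P j) (hPb : ∀ i < K, P i < Lb) (hL : Lb * m ≤ Mo.L)
    (hK : K * m ≤ Mo.L) (c : ℕ → ℝ) :
    lpMean Mo.wt p (Mo.vec m K P c) ≤ Mo.size p m K c + Mo.δ ^ (1 / p) * absSum K c ∧
      Mo.size p m K c ≤ lpMean Mo.wt p (Mo.vec m K P c) + Mo.δ ^ (1 / p) * absSum K c := by
  have hp0 : 0 < p := by linarith
  have h := Mo.transfer m K Lb hm P hP hPb hL hK (fun u => ‖∑ i ∈ range K, c i • u i‖ ^ p)
    (fun u v huv => by rw [sum_congr rfl fun i hi => by rw [huv i (mem_range.1 hi)]])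
    (absSum K c ^ p) (fun a => by
      rw [abs_of_nonneg (by positivity)]
      exact Real.rpow_le_rpow (norm_nonneg _) (Mo.norm_comb m K c id a) hp0.le)
  have hη : (Mo.δ * absSum K c ^ p) ^ (1 / p) = Mo.δ ^ (1 / p) * absSum K c := by
    rw [Real.mul_rpow Mo.hδ (Real.rpow_nonneg (absSum_nonneg K c) _),
      ← Real.rpow_mul (absSum_nonneg K c), mul_one_div, div_self hp0.ne', Real.rpow_one]
  have hnn : ∀ P' : ℕ → ℕ, 0 ≤ ∑ r, Mo.wt r * ‖Mo.vec m K P' c r‖ ^ p := fun P' =>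
    sum_nonneg fun r _ => mul_nonneg (Mo.hwt r) (by positivity)
  obtain ⟨h1, h2⟩ := abs_le.1 h
  have hd : 0 ≤ Mo.δ * absSum K c ^ p :=
    mul_nonneg Mo.hδ (Real.rpow_nonneg (absSum_nonneg K c) _)
  rw [← hη]
  constructor
  · exact rpow_root_le hp (hnn P) (hnn id) hd (by simp only [vec, id]; linarith)
  · exact rpow_root_le hp (hnn id) (hnn P) hd (by simp only [vec, id]; linarith)

lemma sum_range_mul' {E : Type*} [AddCommMonoid E] (f : ℕ → E) (m : ℕ) : ∀ q : ℕ,
    ∑ k ∈ range (q * m), f k = ∑ s ∈ range q, ∑ l ∈ range m, f (s * m + l) := by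
  intro q
  induction q with
  | zero => simp
  | succ q ih => rw [Nat.succ_mul, sum_range_add, ih, sum_range_succ]

lemma blockVec_mul (m q : ℕ) (a : ℕ → ℕ) (b : ℕ) :
    Mo.blockVec (q * m) a b = (q : ℝ)⁻¹ • ∑ s ∈ range q, Mo.blockVec m a (b * q + s) := by
  simp only [blockVec]
  rw [sum_range_mul', ← smul_sum, smul_smul, ← mul_inv, Nat.cast_mul]
  refine congrArg _ (sum_congr rfl fun s _ => sum_congr rfl fun l _ => ?_)
  ring_nf

/-- Two averages of unit vectors over nested windows are close. -/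
lemma avg_window (u : ℕ → X) (hu : ∀ s, ‖u s‖ ≤ 1) (q R₀ i : ℕ) (h0 : 0 < R₀)
    (h : i + R₀ ≤ q) :
    ‖(q : ℝ)⁻¹ • ∑ s ∈ range q, u s - (R₀ : ℝ)⁻¹ • ∑ t ∈ range R₀, u (t + i)‖ ≤
      2 * ((q : ℝ) - R₀) / q := by
  have hS2 : ∑ t ∈ range R₀, u (t + i) = ∑ s ∈ (range R₀).map (addRightEmbedding i), u s := by
    rw [sum_map]; rfl
  set T := (range R₀).map (addRightEmbedding i)
  have hT : T ⊆ range q := by
    intro s hs
    obtain ⟨t, ht, rfl⟩ := mem_map.1 hs
    have := mem_range.1 ht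
    exact mem_range.2 (by simp only [addRightEmbedding_apply]; omega)
  rw [hS2, ← sum_sdiff hT]
  have hn : ∀ S : Finset ℕ, ‖∑ s ∈ S, u s‖ ≤ (#S : ℕ) := fun S => by
    have := (norm_sum_le S u).trans (sum_le_sum fun s _ => hu s)
    simpa using this
  have hA : ‖∑ s ∈ range q \ T, u s‖ ≤ (q : ℝ) - R₀ := by
    refine (hn _).trans (le_of_eq ?_)
    rw [card_sdiff_of_subset hT, card_map, card_range, card_range, Nat.cast_sub (by omega)]
  have hB : ‖∑ s ∈ T, u s‖ ≤ R₀ := by simpa [T] using hn T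
  have hq0 : (0 : ℝ) < q := by exact_mod_cast lt_of_lt_of_le h0 (by omega)
  have hR0 : (0 : ℝ) < R₀ := by exact_mod_cast h0
  have hle : (R₀ : ℝ) ≤ q := by exact_mod_cast (by omega : R₀ ≤ q)
  set A := ∑ s ∈ range q \ T, u s
  set B := ∑ s ∈ T, u s
  rw [smul_add, add_sub_assoc, ← sub_smul]
  refine (norm_add_le _ _).trans ?_
  rw [norm_smul, norm_smul, Real.norm_of_nonneg (by positivity), Real.norm_eq_abs,
    abs_of_nonpos (sub_nonpos.2 (inv_anti₀ hR0 hle))]
  have h1 := mul_le_mul_of_nonneg_left hA (inv_nonneg.2 hq0.le)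
  have h2 := mul_le_mul_of_nonneg_left hB
    (neg_nonneg.2 (sub_nonpos.2 (inv_anti₀ hR0 hle)))
  refine (add_le_add h1 h2).trans (le_of_eq ?_)
  field_simp
  ring

/-- Blocking: merging consecutive blocks along a monotone map does not increase the size much. -/
lemma blocking (p : ℝ) (hp : 1 ≤ p) (m q K K' : ℕ) (hm : 0 < m) (hKq : K ≤ q) (hq : 0 < q)
    (hK : K * m ≤ Mo.L) (hK' : K' * q * m ≤ Mo.L) (π : ℕ → ℕ)
    (hπ : ∀ i j, i ≤ j → j < K → π i ≤ π j) (hπb : ∀ i < K, π i < K') (c : ℕ → ℝ) :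
    lpMean Mo.wt p (Mo.vec (q * m) K π c) ≤
      Mo.size p m K c + absSum K c * (Mo.δ ^ (1 / p) + 2 * K / q) := by
  have hp0 : 0 < p := by linarith
  set R₀ := q - K + 1 with hR
  have hR0 : 0 < R₀ := by omega
  let P : ℕ → ℕ → ℕ := fun t i => π i * q + (t + i)
  let v : ℕ → Fin Mo.R → X := fun t => Mo.vec m K (P t) c
  let avg : Fin Mo.R → X := fun r => (R₀ : ℝ)⁻¹ • ∑ t ∈ range R₀, v t r
  have hwin : ∀ t ∈ range R₀, ∀ i < K, t + i < q := fun t ht i hi => by
    have := mem_range.1 ht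
    omega
  have hv : ∀ t ∈ range R₀,
      lpMean Mo.wt p (v t) ≤ Mo.size p m K c + Mo.δ ^ (1 / p) * absSum K c := by
    intro t ht
    refine (Mo.place p hp m K (K' * q) hm (P t) (fun i j hij hj => ?_) (fun i hi => ?_) hK' hK c).1
    · have := Nat.mul_le_mul_right q (hπ i j hij.le hj)
      simp only [P]
      omega
    · have h1 := Nat.mul_le_mul_right q (Nat.succ_le_of_lt (hπb i hi))
      rw [Nat.succ_mul] at h1
      have := hwin t ht i hi
      simp only [P]
      omega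
  have havg : lpMean Mo.wt p avg ≤ Mo.size p m K c + Mo.δ ^ (1 / p) * absSum K c := by
    simp only [avg]
    rw [lpMean_smul Mo.hwt hp0, abs_of_nonneg (by positivity),
      inv_mul_le_iff₀ (by exact_mod_cast hR0)]
    refine ((lpMean_sum Mo.hwt hp (range R₀) v).trans (sum_le_sum hv)).trans (le_of_eq ?_)
    rw [sum_const, card_range, nsmul_eq_mul]
  have hdiff : lpMean Mo.wt p (fun r => Mo.vec (q * m) K π c r - avg r) ≤
      absSum K c * (2 * K / q) := by
    refine lpMean_le Mo.hwt Mo.hwt1 hp0 _ _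
      (mul_nonneg (absSum_nonneg K c) (by positivity)) fun r => ?_
    simp only [avg, v, vec, P]
    rw [sum_comm (s := range R₀), smul_sum, ← sum_sub_distrib]
    refine (norm_sum_le _ _).trans ?_
    rw [absSum, sum_mul]
    refine sum_le_sum fun i hi => ?_
    have hi' := mem_range.1 hi
    rw [blockVec_mul, ← smul_sum, smul_comm (R₀ : ℝ)⁻¹ (c i), ← smul_sub, norm_smul,
      Real.norm_eq_abs]
    refine mul_le_mul_of_nonneg_left ?_ (abs_nonneg _)
    refine (avg_window (fun s => Mo.blockVec m (Mo.z r) (π i * q + s))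
      (fun s => Mo.norm_blockVec _ _ _) q R₀ i hR0 (by omega)).trans ?_
    refine div_le_div_of_nonneg_right ?_ (by positivity)
    have : (q : ℝ) ≤ R₀ + K := by exact_mod_cast (by omega : q ≤ R₀ + K)
    linarith
  have := lpMean_add Mo.hwt hp (fun r => Mo.vec (q * m) K π c r - avg r) avg
  simp only [sub_add_cancel] at this
  linarith

end Model

/-- Coefficient vector of the step function with values `val t` on the pieces `t < L`. -/
def pieceVec (L : ℕ) (val : ℕ → ℝ) (i : ℕ) : ℝ :=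
  ∑ t ∈ range L, val t * ((if i = t then 1 else 0) - (if i = t + 1 then 1 else 0))

lemma pieceVec_sum (L : ℕ) (val : ℕ → ℝ) (F : ℕ → X) :
    ∑ i ∈ range (L + 1), pieceVec L val i • F i =
      ∑ t ∈ range L, val t • (F t - F (t + 1)) := by
  simp only [pieceVec, sum_smul]
  rw [sum_comm]
  refine sum_congr rfl fun t ht => ?_
  have ht' := mem_range.1 ht
  simp only [mul_smul, sub_smul, ite_smul, one_smul, zero_smul, smul_sub, smul_ite, smul_zero,
    sum_sub_distrib, sum_ite_eq', mem_range, show t < L + 1 by omega, show t + 1 < L + 1 by omega,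
    if_true]

/-- The alternating pattern with `L` pieces. -/
def altVec (L : ℕ) : ℕ → ℝ := pieceVec L fun t => (-1) ^ t

lemma absSum_altVec (L : ℕ) : absSum (L + 1) (altVec L) ≤ 2 * L := by
  calc absSum (L + 1) (altVec L)
      ≤ ∑ i ∈ range (L + 1), ∑ t ∈ range L,
          ((if i = t then (1 : ℝ) else 0) + (if i = t + 1 then 1 else 0)) :=
        sum_le_sum fun i _ => by
          unfold altVec pieceVec
          refine (abs_sum_le_sum_abs _ _).trans (sum_le_sum fun t _ => ?_)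
          rw [abs_mul, abs_neg_one_pow, one_mul]
          split_ifs <;> norm_num
    _ = _ := by
        rw [sum_comm]
        have : ∀ t ∈ range L, ∑ i ∈ range (L + 1),
            ((if i = t then (1 : ℝ) else 0) + (if i = t + 1 then 1 else 0)) = 2 := fun t ht => by
          have ht' := mem_range.1 ht
          simp [sum_add_distrib, show t < L + 1 by omega, ht']
          norm_num
        rw [sum_congr rfl this]
        simp [mul_comm]

namespace Model

variable (Mo : Model X)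

/-- The alternating pattern has size at least the gap, up to errors. -/
lemma alt_lower (p : ℝ) (hp : 1 ≤ p) (hθ : 0 ≤ Mo.θ) (m q L : ℕ) (hm : 0 < m) (hL : 0 < L)
    (hLq : L + 1 ≤ q) (hK : (L + 1) * m ≤ Mo.L) (h2 : 2 * q * m ≤ Mo.L) :
    Mo.θ ≤ Mo.size p m (L + 1) (altVec L) +
      absSum (L + 1) (altVec L) * (Mo.δ ^ (1 / p) + 2 * (L + 1 : ℕ) / q) := by
  refine le_trans ?_ (Mo.blocking p hp m q (L + 1) 2 hm hLq (by omega) hK h2 (fun i => min i 1)
    (fun i j hij _ => by omega) (fun i _ => by omega) (altVec L))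
  refine le_lpMean Mo.hwt Mo.hwt1 (by linarith) _ _ hθ fun r => ?_
  have hv : Mo.vec (q * m) (L + 1) (fun i => min i 1) (altVec L) r =
      Mo.blockVec (q * m) (Mo.z r) 0 - Mo.blockVec (q * m) (Mo.z r) 1 := by
    simp only [vec, altVec, pieceVec_sum L _ (fun i => Mo.blockVec (q * m) (Mo.z r) (min i 1))]
    rw [sum_eq_single_of_mem 0 (mem_range.2 hL)]
    · simp
    · intro t _ ht
      rw [show min t 1 = 1 by omega, show min (t + 1) 1 = 1 by omega, sub_self, smul_zero]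
  rw [hv]
  set n := q * m with hn
  have hn0 : 0 < n := Nat.mul_pos (by omega) hm
  obtain ⟨c, ψ, hψ, hsep⟩ := Mo.hgap r n hn0 (by rw [hn, ← mul_assoc]; exact h2)
  have hn' : (0 : ℝ) < n := by exact_mod_cast hn0
  have h0 : ψ (Mo.blockVec n (Mo.z r) 0) ≤ c := by
    simp only [blockVec, map_smul, map_sum, smul_eq_mul, zero_mul, zero_add]
    rw [inv_mul_le_iff₀ hn']
    exact (sum_le_sum fun l hl => (hsep l (mem_range.1 hl)).1).trans_eq (by simp)
  have h1 : c + Mo.θ ≤ ψ (Mo.blockVec n (Mo.z r) 1) := by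
    simp only [blockVec, map_smul, map_sum, smul_eq_mul, one_mul]
    rw [le_inv_mul_iff₀ hn']
    exact (Eq.trans_le (by simp [mul_add]) (sum_le_sum fun l hl => (hsep l (mem_range.1 hl)).2))
  have h3 := ψ.le_opNorm (Mo.blockVec n (Mo.z r) 0 - Mo.blockVec n (Mo.z r) 1)
  rw [Real.norm_eq_abs, map_sub] at h3
  have h4 := mul_le_of_le_one_left
    (norm_nonneg (Mo.blockVec n (Mo.z r) 0 - Mo.blockVec n (Mo.z r) 1)) hψ
  have := neg_le_abs (ψ (Mo.blockVec n (Mo.z r) 0) - ψ (Mo.blockVec n (Mo.z r) 1))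
  linarith

/-- Three alternating patterns in a row. -/
lemma alt_split (p : ℝ) (hp : 1 ≤ p) (m M : ℕ) (hm : 0 < m) (hL : (6 * M + 1) * m ≤ Mo.L) :
    Mo.size p m (6 * M + 1) (altVec (6 * M)) ≤
      3 * (Mo.size p m (2 * M + 1) (altVec (2 * M)) +
        Mo.δ ^ (1 / p) * absSum (2 * M + 1) (altVec (2 * M))) := by
  have hsum : Mo.vec m (6 * M + 1) id (altVec (6 * M)) = fun r => ∑ s ∈ range 3,
      Mo.vec m (2 * M + 1) (fun i => s * (2 * M) + i) (altVec (2 * M)) r := by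
    funext r
    simp only [vec, id, altVec]
    rw [pieceVec_sum (6 * M) _ (fun i => Mo.blockVec m (Mo.z r) i),
      show 6 * M = 3 * (2 * M) by ring, sum_range_mul']
    refine sum_congr rfl fun s _ => ?_
    rw [pieceVec_sum (2 * M) _ (fun i => Mo.blockVec m (Mo.z r) (s * (2 * M) + i))]
    refine sum_congr rfl fun t _ => ?_
    rw [show (-1 : ℝ) ^ (s * (2 * M) + t) = (-1) ^ t by
      rw [pow_add, show s * (2 * M) = 2 * (s * M) by ring, pow_mul]; norm_num, add_assoc]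
  rw [size, hsum]
  refine (lpMean_sum Mo.hwt hp (range 3) _).trans ?_
  refine (sum_le_sum fun s hs => (Mo.place p hp m (2 * M + 1) (6 * M + 1) hm _
    (fun i j hij _ => by omega) (fun i hi => ?_) hL
    (le_trans (Nat.mul_le_mul_right m (by omega)) hL) _).1).trans (le_of_eq ?_)
  · have := mem_range.1 hs
    interval_cases s <;> omega
  · simp
    ring

end Model

end Vale.Agent.P125
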