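import Mathlib
import Vale.Agent.P125.Lift
import Vale.Agent.P125.Ladder
import Vale.Agent.P125.Law
import Vale.Agent.P125.Circle
import Vale.Agent.P125.Pattern

/-!
# Ladders are incompatible with nontrivial Markov type

States are labellings of a finite window of sites, a step applies one of the four maps of the
line. Path sums read off the drift of the sign walk while single steps stay bounded.
-/

namespace Vale.Agent.P125

open Finset Filter Topology

variable {X : Type*} [NormedAddCommGroup X] [NormedSpace ℝ X]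

/-- Number of elements of `W` below `a`. -/
def rankIn (W : Finset ℚ) (a : ℚ) : ℕ := #(W.filter (· < a))

lemma rankIn_lt {W : Finset ℚ} {a : ℚ} (ha : a ∈ W) : rankIn W a < #W :=
  card_lt_card (filter_ssubset.2 ⟨a, ha, lt_irrefl a⟩)

lemma rankIn_strict {W : Finset ℚ} {a b : ℚ} (ha : a ∈ W) (hab : a < b) :
    rankIn W a < rankIn W b := by
  refine card_lt_card ⟨fun c hc => ?_, fun h => ?_⟩
  · obtain ⟨h1, h2⟩ := mem_filter.1 hc
    exact mem_filter.2 ⟨h1, h2.trans hab⟩
  · exact lt_irrefl a (mem_filter.1 (h (mem_filter.2 ⟨ha, hab⟩))).2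

lemma rankIn_orderEmb (W : Finset ℚ) (i : Fin #W) :
    rankIn W (W.orderEmbOfFin rfl i) = i := by
  have h : W.filter (· < W.orderEmbOfFin rfl i) =
      (Iio i).map (W.orderEmbOfFin rfl).toEmbedding := by
    ext a
    simp only [mem_filter, Finset.mem_map, mem_Iio, RelEmbedding.coe_toEmbedding]
    constructor
    · rintro ⟨ha, hlt⟩
      obtain ⟨k, hk⟩ : a ∈ Set.range (W.orderEmbOfFin rfl) := by
        rw [range_orderEmbOfFin]; exact ha
      exact ⟨k, (W.orderEmbOfFin rfl).lt_iff_lt.1 (hk ▸ hlt), hk⟩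
    · rintro ⟨k, hk, rfl⟩
      exact ⟨orderEmbOfFin_mem _ _ _, (W.orderEmbOfFin rfl).lt_iff_lt.2 hk⟩
  rw [rankIn, h, card_map, Fin.card_Iio]

/-- Sampling: merging the sites between consecutive sample points reads off cumulative sums. -/
lemma sampling (W : Finset ℚ) (D : ℚ →₀ ℝ) (hD : D.support ⊆ W) (htot : total D = 0)
    (t : ℕ → ℚ) (ht : ∀ i j, i ≤ j → t i ≤ t j) (L' : ℕ) :
    ∃ π : ℕ → ℕ, (∀ i j, i ≤ j → π i ≤ π j) ∧ (∀ i, π i ≤ L') ∧ ∀ F : ℕ → X,
      ∑ a ∈ W, D a • F (π (rankIn W a)) =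
        ∑ l ∈ range L', cum D (t l) • (F l - F (l + 1)) := by
  let ρ : ℕ → ℕ := fun l => #(W.filter (· ≤ t l))
  let π : ℕ → ℕ := fun i => #((range L').filter fun l => ρ l ≤ i)
  have hρ : ∀ i j, i ≤ j → ρ i ≤ ρ j := fun i j h => card_le_card fun a ha => by
    obtain ⟨h1, h2⟩ := mem_filter.1 ha
    exact mem_filter.2 ⟨h1, h2.trans (ht i j h)⟩
  have hiff : ∀ i, ∀ l < L', (π i ≤ l ↔ i < ρ l) := by
    intro i l hl
    constructor
    · intro h
      by_contra hcon
      push Not at hcon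
      have : range (l + 1) ⊆ (range L').filter fun k => ρ k ≤ i := fun k hk => by
        have := mem_range.1 hk
        exact mem_filter.2 ⟨mem_range.2 (by omega), (hρ k l (by omega)).trans hcon⟩
      have := card_le_card this
      simp only [card_range] at this
      simp only [π] at h
      omega
    · intro h
      have : ((range L').filter fun k => ρ k ≤ i) ⊆ range l := fun k hk => by
        obtain ⟨h1, h2⟩ := mem_filter.1 hk
        refine mem_range.2 ?_
        by_contra hcon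
        have := hρ l k (by omega)
        omega
      have := card_le_card this
      simp only [card_range] at this
      exact this
  have hπb : ∀ i, π i ≤ L' := fun i => (card_filter_le _ _).trans_eq (card_range L')
  refine ⟨π, fun i j h => card_le_card fun k hk => ?_, hπb, fun F => ?_⟩
  · obtain ⟨h1, h2⟩ := mem_filter.1 hk
    exact mem_filter.2 ⟨h1, h2.trans h⟩
  have habel : ∀ i, F (π i) =
      F L' + ∑ l ∈ range L', (if i < ρ l then (1 : ℝ) else 0) • (F l - F (l + 1)) := by
    intro i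
    simp only [ite_smul, one_smul, zero_smul]
    rw [← sum_filter]
    have he : (range L').filter (fun l => i < ρ l) = Ico (π i) L' := by
      ext l
      simp only [mem_filter, mem_range, mem_Ico]
      constructor
      · rintro ⟨h1, h2⟩; exact ⟨(hiff i l h1).2 h2, h1⟩
      · rintro ⟨h1, h2⟩; exact ⟨h2, (hiff i l h2).1 h1⟩
    rw [he, sum_Ico_eq_sum_range,
      show (fun k => F (π i + k) - F (π i + k + 1)) =
        fun k => F (π i + k) - F (π i + (k + 1)) from rfl,
      sum_range_sub' (fun k => F (π i + k)), Nat.add_zero, Nat.add_sub_cancel' (hπb i)]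
    abel
  have hrank : ∀ a ∈ W, ∀ l, (rankIn W a < ρ l ↔ a ≤ t l) := by
    intro a ha l
    constructor
    · intro h
      by_contra hcon
      push Not at hcon
      refine not_le.2 h (card_le_card fun b hb => ?_)
      obtain ⟨h1, h2⟩ := mem_filter.1 hb
      exact mem_filter.2 ⟨h1, lt_of_le_of_lt h2 hcon⟩
    · intro h
      refine card_lt_card ⟨fun b hb => ?_, fun hsub => ?_⟩
      · obtain ⟨h1, h2⟩ := mem_filter.1 hb
        exact mem_filter.2 ⟨h1, h2.le.trans h⟩
      · exact lt_irrefl a (mem_filter.1 (hsub (mem_filter.2 ⟨ha, h⟩))).2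
  have htot' : ∑ a ∈ W, D a = 0 := by
    rw [← htot, total, Finsupp.sum_of_support_subset D hD _ (fun _ _ => rfl)]
  have hcum : ∀ l, ∑ a ∈ W, D a * (if rankIn W a < ρ l then (1 : ℝ) else 0) = cum D (t l) := by
    intro l
    rw [cum, Finsupp.sum_of_support_subset D hD _ (fun _ _ => by simp)]
    refine sum_congr rfl fun a ha => ?_
    simp only [hrank a ha l, mul_ite, mul_one, mul_zero]
  simp only [habel, smul_add, smul_sum, smul_smul, sum_add_distrib, ← sum_smul, htot', zero_smul,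
    zero_add]
  rw [sum_comm]
  refine sum_congr rfl fun l _ => ?_
  rw [← sum_smul, hcum]

/-- Coefficients of a jump vector on the ranks of `W`. -/
noncomputable def rankCoeff (W : Finset ℚ) (D : ℚ →₀ ℝ) (i : ℕ) : ℝ :=
  ∑ a ∈ W.filter (fun a => rankIn W a = i), D a

lemma rankCoeff_sum (W : Finset ℚ) (D : ℚ →₀ ℝ) (F : ℕ → X) :
    ∑ i ∈ range #W, rankCoeff W D i • F i = ∑ a ∈ W, D a • F (rankIn W a) := by
  rw [← sum_fiberwise_of_maps_to (g := rankIn W) (fun a ha => mem_range.2 (rankIn_lt ha))]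
  refine sum_congr rfl fun i _ => ?_
  rw [rankCoeff, sum_smul]
  exact sum_congr rfl fun a ha => by rw [(mem_filter.1 ha).2]

lemma absSum_rankCoeff (W : Finset ℚ) (D : ℚ →₀ ℝ) :
    absSum #W (rankCoeff W D) ≤ ∑ a ∈ W, |D a| := by
  rw [← sum_fiberwise_of_maps_to (g := rankIn W) (fun a ha => mem_range.2 (rankIn_lt ha))]
  exact sum_le_sum fun i _ => abs_sum_le_sum_abs _ _

lemma wordAvg_rpow {p : ℝ} (hp : 1 ≤ p) : ∀ (u : ℕ) (f : List (ZMod 4) → ℝ), (∀ w, 0 ≤ f w) →
    0 ≤ wordAvg u f ∧ wordAvg u f ^ p ≤ wordAvg u (fun w => f w ^ p) := by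
  intro u
  induction u with
  | zero => exact fun f hf => ⟨hf [], le_rfl⟩
  | succ u ih =>
    intro f hf
    have h := fun j : ZMod 4 => ih (fun w => f (j :: w)) fun w => hf _
    have h0 : 0 ≤ wordAvg (u + 1) f := div_nonneg (sum_nonneg fun j _ => (h j).1) (by norm_num)
    refine ⟨h0, ?_⟩
    have hm := Real.rpow_arith_mean_le_arith_mean_rpow (univ : Finset (ZMod 4))
      (fun _ => (1 / 4 : ℝ)) (fun j => wordAvg u fun w => f (j :: w)) (fun _ _ => by norm_num)
      (by simp [ZMod.card]) (fun j _ => (h j).1) hp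
    have e : wordAvg (u + 1) f = ∑ j : ZMod 4, (1 / 4 : ℝ) * wordAvg u (fun w => f (j :: w)) := by
      rw [← mul_sum]; simp only [wordAvg]; ring
    rw [e]
    refine hm.trans ?_
    rw [← mul_sum]
    simp only [wordAvg]
    linarith [sum_le_sum (s := (univ : Finset (ZMod 4))) fun j _ => (h j).2]

lemma walk_bound {V T : Type*} [Fintype T] [DecidableEq V] (src tgt : T → V) (w : T → ℝ)
    (hw : ∀ τ, 0 ≤ w τ) (ω : T → X) {p B : ℝ} (hp : 0 < p) (hB : 0 ≤ B)
    (hω : ∀ τ, ‖ω τ‖ ≤ B) : ∀ (k : ℕ) (e : V) (v : X),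
      0 ≤ walk src tgt w ω (fun u => ‖u‖ ^ p) k e v ∧
      walk src tgt w ω (fun u => ‖u‖ ^ p) k e v ≤ (‖v‖ + k * B) ^ p := by
  intro k
  induction k with
  | zero => intro e v; simp [walk, Real.rpow_nonneg (norm_nonneg v)]
  | succ k ih =>
    intro e v
    have hc : ∀ τ, 0 ≤ (if src τ = e then w τ / mass src w e else 0) := fun τ => by
      split_ifs
      · exact div_nonneg (hw τ) (sum_nonneg fun σ _ => by split_ifs <;> simp [hw])
      · exact le_rfl
    refine ⟨sum_nonneg fun τ _ => mul_nonneg (hc τ) (ih _ _).1, ?_⟩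
    simp only [walk]
    refine (sum_le_sum fun τ _ => mul_le_mul_of_nonneg_left
      ((ih _ _).2.trans (Real.rpow_le_rpow (by positivity) (show ‖v + ω τ‖ + k * B ≤
        ‖v‖ + ((k + 1 : ℕ) : ℝ) * B by
        have := norm_add_le v (ω τ)
        have := hω τ
        push_cast
        linarith) hp.le)) (hc τ)).trans ?_
    rw [← sum_mul]
    refine mul_le_of_le_one_left (by positivity) ?_
    calc ∑ τ, (if src τ = e then w τ / mass src w e else 0)
        = (∑ τ, if src τ = e then w τ else 0) / mass src w e := by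
          rw [sum_div]; exact sum_congr rfl fun τ _ => by split_ifs <;> simp
      _ ≤ 1 := div_self_le_one _

/-- A window of sites together with its two translates under `shift j`. -/
noncomputable def window (W : Finset ℚ) (j : ZMod 4) : Finset ℚ := W ∪ W.image (shift j)

/-- Labelling of the sites of `W` by averaged vectors, read at the positions `pos`. -/
noncomputable def stateOf (Mo : Model X) (m : ℕ) (W : Finset ℚ) (pos : ℚ → ℕ) (a : ℕ → ℕ) :
    ℚ → X :=
  fun b => if b ∈ W then Mo.blockVec m a (pos b) else 0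

lemma stateOf_norm (Mo : Model X) (m : ℕ) (W : Finset ℚ) (pos : ℚ → ℕ) (a : ℕ → ℕ) (b : ℚ) :
    ‖stateOf Mo m W pos a b‖ ≤ 1 := by
  simp only [stateOf]
  split_ifs
  · exact Mo.norm_blockVec _ _ _
  · simp

lemma state_transfer (Mo : Model X) (m Lb : ℕ) (W : Finset ℚ) (pos : ℚ → ℕ) (hm : 0 < m)
    (hpos : ∀ a ∈ W, ∀ b ∈ W, a < b → pos a < pos b) (hposb : ∀ a ∈ W, pos a < Lb)
    (hL : Lb * m ≤ Mo.L) (hW : #W * m ≤ Mo.L) (G : (ℚ → X) → ℝ) (Mb : ℝ)
    (hG : ∀ e, |G e| ≤ Mb) :
    |∑ r, Mo.wt r * G (stateOf Mo m W pos (Mo.z r)) -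
      ∑ r, Mo.wt r * G (stateOf Mo m W (rankIn W) (Mo.z r))| ≤ Mo.δ * Mb := by
  let en := W.orderEmbOfFin rfl
  let P : ℕ → ℕ := fun i => if h : i < #W then pos (en ⟨i, h⟩) else 0
  have h := Mo.transfer m #W Lb hm P
    (fun i j hij hj => by
      simp only [P, dif_pos hj, dif_pos (hij.trans hj)]
      exact hpos _ (orderEmbOfFin_mem _ _ _) _ (orderEmbOfFin_mem _ _ _)
        (en.strictMono (Fin.mk_lt_mk.2 hij)))
    (fun i hi => by
      simp only [P, dif_pos hi]
      exact hposb _ (orderEmbOfFin_mem _ _ _)) hL hW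
    (fun u => G fun b => if b ∈ W then u (rankIn W b) else 0)
    (fun u v huv => congrArg G (funext fun b => by
      by_cases hb : b ∈ W
      · simp only [if_pos hb]; exact huv _ (rankIn_lt hb)
      · simp only [if_neg hb]))
    Mb (fun a => hG _)
  have e : ∀ r, (fun b => if b ∈ W then Mo.blockVec m (Mo.z r) (P (rankIn W b)) else 0) =
      stateOf Mo m W pos (Mo.z r) := fun r => funext fun b => by
    by_cases hb : b ∈ W
    · simp only [stateOf, if_pos hb]
      obtain ⟨k, hk⟩ : b ∈ Set.range en := by rw [range_orderEmbOfFin]; exact hb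
      rw [← hk, rankIn_orderEmb]
      simp only [P, dif_pos k.isLt, Fin.eta]
    · simp only [stateOf, if_neg hb]
  simp only [e] at h
  exact h

/-- The vector read off a labelling by the jumps along a word. -/
noncomputable def readOff (N : ℕ) (W : Finset ℚ) (w : List (ZMod 4)) (e : ℚ → X) : X :=
  ∑ a ∈ W, wordJumps N w a • e a

/-- Size of the pattern of a word on the window `W`. -/
noncomputable def outSize (Mo : Model X) (p : ℝ) (m N : ℕ) (W : Finset ℚ)
    (w : List (ZMod 4)) : ℝ :=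
  Mo.size p m #W (rankCoeff W (wordJumps N w))

/-- Size of the pattern of a single step. -/
noncomputable def inSize (Mo : Model X) (p : ℝ) (m N : ℕ) (W : Finset ℚ) (j : ZMod 4) : ℝ :=
  lpMean Mo.wt p fun r =>
    ∑ a ∈ window W j, jumps N j a • Mo.blockVec m (Mo.z r) (rankIn (window W j) a)

lemma outSize_eq (Mo : Model X) (p : ℝ) (hp : 0 < p) (m N : ℕ) (W : Finset ℚ)
    (w : List (ZMod 4)) :
    outSize Mo p m N W w ^ p =
      ∑ r, Mo.wt r * ‖readOff N W w (stateOf Mo m W (rankIn W) (Mo.z r))‖ ^ p := by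
  rw [outSize, Model.size, lpMean_rpow Mo.hwt hp]
  refine sum_congr rfl fun r _ => ?_
  simp only [Model.vec, id, rankCoeff_sum, readOff]
  refine congrArg (fun v : X => Mo.wt r * ‖v‖ ^ p) (sum_congr rfl fun a ha => ?_)
  simp [stateOf, ha]

lemma brks_subset_window (N n : ℕ) (hn : 1 ≤ n) (j : ZMod 4) :
    brks N j ⊆ window (sites N n) j := by
  intro a ha
  refine mem_union_right _ (mem_image.2 ⟨shift (j + 2) a, ?_, shift_shift' j a⟩)
  exact sites_mono N hn (mem_sites_succ N 0 j a (mem_union_right _ ha))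

lemma rankIn_window (W : Finset ℚ) (j : ZMod 4) (a : ℚ) :
    rankIn (window W (j + 2)) a = rankIn (window W j) (shift j a) := by
  have h : window W j = (window W (j + 2)).image (shift j) := by
    simp only [window, image_union, image_image]
    rw [union_comm]
    congr 1
    rw [show shift j ∘ shift (j + 2) = id from funext (shift_shift' j), image_id]
  rw [rankIn, rankIn, h, filter_image, card_image_of_injective _ (shift_strictMono j).injective]
  exact congrArg card (filter_congr fun b _ => ((shift_strictMono j).lt_iff_lt).symm)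

/-- The chain bound: average drift of the patterns against the size of single steps. -/
theorem chain_bound {p K : ℝ} (hp : 1 ≤ p) (hK0 : 0 ≤ K)
    (hK : ∀ (N : ℕ) (π : Fin N → ℝ) (P : Matrix (Fin N) (Fin N) ℝ) (f : Fin N → X),
      IsReversibleChain π P → ∀ t : ℕ, 1 ≤ t →
        ∑ i, ∑ j, π i * (P ^ t) i j * ‖f j - f i‖ ^ p ≤
          K ^ p * t * ∑ i, ∑ j, π i * P i j * ‖f j - f i‖ ^ p)
    (Mo : Model X) (n N m : ℕ) (hn : 1 ≤ n) (hN : 1 ≤ N) (hm : 0 < m)
    (hL : 2 * #(sites N n) * m ≤ Mo.L) (Bd : ℝ)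
    (hBw : ∀ w : List (ZMod 4), w.length ≤ n → ∑ a ∈ sites N n, |wordJumps N w a| ≤ Bd)
    (hBj : ∀ j, ∑ a ∈ window (sites N n) j, |jumps N j a| ≤ Bd) :
    wordAvg n (fun w => outSize Mo p m N (sites N n) w ^ p) ≤
      K ^ p * n * ((∑ j, inSize Mo p m N (sites N n) j ^ p) / 4) +
        (2 * n + 1 : ℕ) * (Mo.δ * (Bd + n * Bd) ^ p) := by
  classical
  have hp0 : 0 < p := by linarith
  set W := sites N n with hW
  have hBd : 0 ≤ Bd := (sum_nonneg fun _ _ => abs_nonneg _).trans (hBw [] (by simp))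
  let srcF : ZMod 4 × Fin Mo.R → ℚ → X := fun τ =>
    stateOf Mo m W (rankIn (window W τ.1)) (Mo.z τ.2)
  let tgtF : ZMod 4 × Fin Mo.R → ℚ → X := fun τ =>
    stateOf Mo m W (fun a => rankIn (window W τ.1) (shift τ.1 a)) (Mo.z τ.2)
  let bar : ZMod 4 × Fin Mo.R → ZMod 4 × Fin Mo.R := fun τ => (τ.1 + 2, τ.2)
  let wgt : ZMod 4 × Fin Mo.R → ℝ := fun τ => Mo.wt τ.2 / 4
  let ω : ZMod 4 × Fin Mo.R → X := fun τ =>
    ∑ a ∈ window W τ.1, jumps N τ.1 a • Mo.blockVec m (Mo.z τ.2) (rankIn (window W τ.1) a)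
  have hts : ∀ τ, srcF (bar τ) = tgtF τ := fun τ => funext fun a => by
    simp only [srcF, tgtF, bar, stateOf, rankIn_window]
  let S : Finset (ℚ → X) := univ.image srcF
  have hsS : ∀ τ, srcF τ ∈ S := fun τ => mem_image_of_mem _ (mem_univ τ)
  let src : ZMod 4 × Fin Mo.R → {e // e ∈ S} := fun τ => ⟨srcF τ, hsS τ⟩
  let tgt : ZMod 4 × Fin Mo.R → {e // e ∈ S} := fun τ => ⟨tgtF τ, hts τ ▸ hsS (bar τ)⟩
  have hwgt : ∀ τ, 0 ≤ wgt τ := fun τ => div_nonneg (Mo.hwt _) (by norm_num)
  have hwgt1 : ∑ τ, wgt τ = 1 := by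
    simp [wgt, Fintype.sum_prod_type, ← sum_div, Mo.hwt1, ZMod.card]
  have hω : ∀ τ, ω (bar τ) = -ω τ := by
    intro τ
    have hwin : window W τ.1 = (window W (τ.1 + 2)).image (shift τ.1) := by
      simp only [window, image_union, image_image]
      rw [union_comm]
      congr 1
      rw [show shift τ.1 ∘ shift (τ.1 + 2) = id from funext (shift_shift' τ.1), image_id]
    have hjmp : ∀ a, jumps N (τ.1 + 2) a = -jumps N τ.1 (shift τ.1 a) := fun a => by
      rw [← neg_neg (jumps N (τ.1 + 2)), ← jumps_antisymm N hN τ.1, Finsupp.neg_apply]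
      conv_lhs => rw [← shift_shift τ.1 a]
      rw [Finsupp.mapDomain_apply (shift_strictMono _).injective]
    simp only [ω, bar, ← sum_neg_distrib]
    conv_rhs => rw [hwin, sum_image (shift_strictMono τ.1).injective.injOn]
    refine sum_congr rfl fun a _ => ?_
    rw [hjmp, rankIn_window, neg_smul, ← hwin]
  have hωb : ∀ τ, ‖ω τ‖ ≤ Bd := fun τ => by
    refine (norm_sum_le _ _).trans ((sum_le_sum fun a _ => ?_).trans (hBj τ.1))
    rw [norm_smul, Real.norm_eq_abs]
    exact mul_le_of_le_one_right (abs_nonneg _) (Mo.norm_blockVec _ _ _)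
  have hYb : ∀ w : List (ZMod 4), w.length ≤ n → ∀ e : {e // e ∈ S},
      ‖readOff N W w e.1‖ ≤ Bd := by
    intro w hw e
    obtain ⟨τ, -, hτ⟩ := mem_image.1 e.2
    refine (norm_sum_le _ _).trans ((sum_le_sum fun a _ => ?_).trans (hBw w hw))
    rw [norm_smul, Real.norm_eq_abs, ← hτ]
    exact mul_le_of_le_one_right (abs_nonneg _) (stateOf_norm _ _ _ _ _ _)
  have hYstep : ∀ (w : List (ZMod 4)) (j : ZMod 4) (r : Fin Mo.R), w.length < n →
      readOff N W w (srcF (j, r)) + ω (j, r) = readOff N W (j :: w) (tgtF (j, r)) := by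
    intro w j r hw
    have hsw : (wordJumps N w).support ⊆ W :=
      (wordJumps_support N w).trans (sites_mono N hw.le)
    have hsw' : (wordJumps N (j :: w)).support ⊆ W :=
      (wordJumps_support N (j :: w)).trans (sites_mono N (by simpa using hw))
    have hWU : W ⊆ window W j := subset_union_left
    have hjU : (jumps N j).support ⊆ window W j :=
      (jumps_support N j).trans (brks_subset_window N n hn j)
    have hwU : (wordJumps N w + jumps N j).support ⊆ window W j :=
      Finsupp.support_add.trans (union_subset (hsw.trans hWU) hjU)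
    set B : ℚ → X := fun a => Mo.blockVec m (Mo.z r) (rankIn (window W j) a)
    have e1 : readOff N W w (srcF (j, r)) = ∑ a ∈ window W j, wordJumps N w a • B a := by
      rw [readOff, ← sum_subset hWU fun a _ ha => by
        rw [Finsupp.notMem_support_iff.1 (fun h => ha (hsw h)), zero_smul]]
      exact sum_congr rfl fun a ha => by simp [srcF, stateOf, ha, B]
    have hmem : ∀ a ∈ (wordJumps N w + jumps N j).support, shift (j + 2) a ∈ W := by
      intro a ha
      refine sites_mono N (show w.length + 1 ≤ n by omega) (mem_sites_succ N _ j a ?_)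
      exact union_subset_union (wordJumps_support N w) (jumps_support N j)
        (Finsupp.support_add ha)
    have e2 : readOff N W (j :: w) (tgtF (j, r)) =
        ∑ a ∈ window W j, (wordJumps N w + jumps N j) a • B a := by
      rw [readOff, ← Finsupp.sum_of_support_subset _ hsw' (fun a d => d • tgtF (j, r) a)
        (fun _ _ => zero_smul _ _), wordJumps,
        Finsupp.sum_mapDomain_index (h := fun a d => d • tgtF (j, r) a) (fun _ => zero_smul _ _)
          (fun _ _ _ => add_smul _ _ _),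
        ← Finsupp.sum_of_support_subset _ hwU (fun a d => d • B a) (fun _ _ => zero_smul _ _)]
      refine Finsupp.sum_congr fun a ha => ?_
      simp [tgtF, stateOf, hmem a ha, shift_shift', B]
    rw [e1, e2]
    simp only [ω, Finsupp.add_apply, add_smul, sum_add_distrib, B]
  let wk := fun (k : ℕ) (e : {e // e ∈ S}) (v : X) =>
    walk src tgt wgt ω (fun u => ‖u‖ ^ p) k e v
  have hwk : ∀ k e v, 0 ≤ wk k e v ∧ wk k e v ≤ (‖v‖ + k * Bd) ^ p :=
    walk_bound src tgt wgt hwgt ω hp0 hBd hωb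
  have hmass : ∀ f : {e // e ∈ S} → ℝ,
      ∑ e, mass src wgt e * f e = ∑ τ, wgt τ * f (src τ) := by
    intro f
    simp only [mass, sum_mul, ite_mul, zero_mul]
    rw [sum_comm]
    simp
  have hmaxU : ∀ j, #(window W j) * m ≤ Mo.L := fun j => by
    refine le_trans (Nat.mul_le_mul_right m ?_) hL
    exact (card_union_le _ _).trans (by have := card_image_le (s := W) (f := shift j); omega)
  have hWL : #W * m ≤ Mo.L := le_trans (Nat.mul_le_mul_right m (by omega)) hL
  have hMb : 0 ≤ (Bd + n * Bd) ^ p := by positivity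
  let ext : ({e // e ∈ S} → ℝ) → (ℚ → X) → ℝ := fun f e => if h : e ∈ S then f ⟨e, h⟩ else 0
  have hext : ∀ f : {e // e ∈ S} → ℝ, (∀ e, |f e| ≤ (Bd + n * Bd) ^ p) →
      ∀ j, |∑ r, Mo.wt r * f (src (j, r)) -
          ∑ r, Mo.wt r * ext f (stateOf Mo m W (rankIn W) (Mo.z r))| ≤
            Mo.δ * (Bd + n * Bd) ^ p ∧
        |∑ r, Mo.wt r * f (tgt (j, r)) -
          ∑ r, Mo.wt r * ext f (stateOf Mo m W (rankIn W) (Mo.z r))| ≤
            Mo.δ * (Bd + n * Bd) ^ p := by
    intro f hf j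
    have hb : ∀ e, |ext f e| ≤ (Bd + n * Bd) ^ p := fun e => by
      simp only [ext]
      split_ifs
      · exact hf _
      · simpa using hMb
    have e1 : ∀ τ, ext f (srcF τ) = f (src τ) := fun τ => dif_pos (hsS τ)
    have e2 : ∀ τ, ext f (tgtF τ) = f (tgt τ) := fun τ => dif_pos (tgt τ).2
    constructor
    · have h := state_transfer Mo m #(window W j) W (rankIn (window W j)) hm
        (fun a ha b _ hab => rankIn_strict (mem_union_left _ ha) hab)
        (fun a ha => rankIn_lt (mem_union_left _ ha)) (hmaxU j) hWL (ext f) _ hb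
      simpa only [← e1, srcF] using h
    · have h := state_transfer Mo m #(window W j) W (fun a => rankIn (window W j) (shift j a)) hm
        (fun a ha b _ hab => rankIn_strict (mem_union_right _ (mem_image_of_mem _ ha))
          (shift_strictMono j hab))
        (fun a ha => rankIn_lt (mem_union_right _ (mem_image_of_mem _ ha))) (hmaxU j) hWL
        (ext f) _ hb
      simpa only [← e2, tgtF] using h
  let A : ℕ → ℝ := fun u => wordAvg u fun w =>
    ∑ e, mass src wgt e * wk (n - u) e (readOff N W w e.1)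
  have hstep : ∀ u < n, A (u + 1) ≤ A u + 2 * (Mo.δ * (Bd + n * Bd) ^ p) := by
    intro u hu
    simp only [A]
    rw [wordAvg_swap u, ← wordAvg_const u (2 * (Mo.δ * (Bd + n * Bd) ^ p)), ← wordAvg_add]
    refine wordAvg_mono u _ _ fun w hw => ?_
    have hk : n - u = (n - (u + 1)) + 1 := by omega
    have hA : ∑ e, mass src wgt e * wk (n - u) e (readOff N W w e.1) =
        (∑ j : ZMod 4, ∑ r, Mo.wt r * wk (n - (u + 1)) (tgt (j, r))
          (readOff N W (j :: w) (tgt (j, r)).1)) / 4 := by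
      rw [hk]
      simp only [wk, walk, mul_sum, ← mul_assoc, mass_mul_div src wgt hwgt]
      rw [sum_comm, Fintype.sum_prod_type, sum_div]
      refine sum_congr rfl fun j _ => ?_
      rw [sum_div]
      refine sum_congr rfl fun r _ => ?_
      simp only [ite_mul, zero_mul, sum_ite_eq, mem_univ, if_true]
      rw [← hYstep w j r (by omega)]
      simp only [wgt, src]
      ring
    rw [hA, div_add' _ _ _ (by norm_num : (4 : ℝ) ≠ 0)]
    refine div_le_div_of_nonneg_right ?_ (by norm_num)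
    have e4 : 2 * (Mo.δ * (Bd + n * Bd) ^ p) * 4 =
        ∑ _j : ZMod 4, 2 * (Mo.δ * (Bd + n * Bd) ^ p) := by
      simp [ZMod.card]; ring
    rw [e4, ← sum_add_distrib]
    refine sum_le_sum fun j _ => ?_
    set f : {e // e ∈ S} → ℝ := fun e => wk (n - (u + 1)) e (readOff N W (j :: w) e.1)
    have hf : ∀ e, |f e| ≤ (Bd + n * Bd) ^ p := fun e => by
      obtain ⟨h1, h2⟩ := hwk (n - (u + 1)) e (readOff N W (j :: w) e.1)
      rw [abs_of_nonneg h1]
      refine h2.trans (Real.rpow_le_rpow (by positivity) ?_ hp0.le)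
      have h3 := hYb (j :: w) (by simp; omega) e
      have h4 : ((n - (u + 1) : ℕ) : ℝ) * Bd ≤ n * Bd :=
        mul_le_mul_of_nonneg_right (by exact_mod_cast Nat.sub_le _ _) hBd
      linarith
    show ∑ e, mass src wgt e * f e ≤ ∑ r, Mo.wt r * f (tgt (j, r)) + _
    rw [hmass f, Fintype.sum_prod_type]
    simp only [wgt, div_mul_eq_mul_div, ← sum_div]
    rw [div_le_iff₀ (by norm_num : (0 : ℝ) < 4)]
    calc ∑ j', ∑ r, Mo.wt r * f (src (j', r))
        ≤ ∑ _j' : ZMod 4,
            (∑ r, Mo.wt r * f (tgt (j, r)) + 2 * (Mo.δ * (Bd + n * Bd) ^ p)) :=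
          sum_le_sum fun j' _ => by
            have := abs_le.1 (hext f hf j').1
            have := abs_le.1 (hext f hf j).2
            linarith
      _ = _ := by simp [ZMod.card]; ring
  have hiter : ∀ u ≤ n, A u ≤ A 0 + u * (2 * (Mo.δ * (Bd + n * Bd) ^ p)) := by
    intro u
    induction u with
    | zero => intro _; simp
    | succ u ih =>
      intro hu
      have := hstep u (by omega)
      have := ih (by omega)
      push_cast
      linarith
  have hA0 : A 0 ≤ K ^ p * n * ((∑ j, inSize Mo p m N W j ^ p) / 4) := by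
    have h := lift_bound hp0 hK hK0 wgt hwgt hwgt1 src tgt bar
      (fun τ => Prod.ext (add_two_add_two τ.1) rfl) (fun τ => rfl)
      (fun τ => Subtype.ext (hts τ)) ω hω n hn
    have e : ∑ τ, wgt τ * ‖ω τ‖ ^ p = (∑ j, inSize Mo p m N W j ^ p) / 4 := by
      rw [Fintype.sum_prod_type, sum_div]
      refine sum_congr rfl fun j _ => ?_
      rw [inSize, lpMean_rpow Mo.hwt hp0, sum_div]
      exact sum_congr rfl fun r _ => div_mul_eq_mul_div _ _ _
    rw [e] at h
    simpa [A, wk, wordAvg, readOff, wordJumps] using h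
  have hAn : wordAvg n (fun w => outSize Mo p m N W w ^ p) ≤
      A n + Mo.δ * (Bd + n * Bd) ^ p := by
    simp only [A]
    rw [← wordAvg_const n (Mo.δ * (Bd + n * Bd) ^ p), ← wordAvg_add]
    refine wordAvg_mono n _ _ fun w hw => ?_
    simp only [Nat.sub_self, wk, walk]
    set f : {e // e ∈ S} → ℝ := fun e => ‖readOff N W w e.1‖ ^ p
    have hf : ∀ e, |f e| ≤ (Bd + n * Bd) ^ p := fun e => by
      rw [abs_of_nonneg (by positivity)]
      refine Real.rpow_le_rpow (norm_nonneg _) ((hYb w hw.le e).trans ?_) hp0.le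
      have : (0 : ℝ) ≤ n * Bd := by positivity
      linarith
    show _ ≤ ∑ e, mass src wgt e * f e + _
    rw [hmass f, Fintype.sum_prod_type]
    have hj : ∀ j : ZMod 4, outSize Mo p m N W w ^ p ≤
        ∑ r, Mo.wt r * f (src (j, r)) + Mo.δ * (Bd + n * Bd) ^ p := by
      intro j
      rw [outSize_eq Mo p hp0]
      have h1 := state_transfer Mo m #(window W j) W (rankIn (window W j)) hm
        (fun a ha b _ hab => rankIn_strict (mem_union_left _ ha) hab)
        (fun a ha => rankIn_lt (mem_union_left _ ha)) (hmaxU j) hWL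
        (fun e => min (‖readOff N W w e‖ ^ p) ((Bd + n * Bd) ^ p)) ((Bd + n * Bd) ^ p)
        (fun e => by
          rw [abs_of_nonneg (le_min (by positivity) hMb)]
          exact min_le_right _ _)
      have hmin : ∀ (pos : ℚ → ℕ) r,
          min (‖readOff N W w (stateOf Mo m W pos (Mo.z r))‖ ^ p) ((Bd + n * Bd) ^ p) =
            ‖readOff N W w (stateOf Mo m W pos (Mo.z r))‖ ^ p := fun pos r => by
        refine min_eq_left (Real.rpow_le_rpow (norm_nonneg _) ?_ hp0.le)
        have h5 : ‖readOff N W w (stateOf Mo m W pos (Mo.z r))‖ ≤ Bd := by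
          refine (norm_sum_le _ _).trans ((sum_le_sum fun a _ => ?_).trans (hBw w hw.le))
          rw [norm_smul, Real.norm_eq_abs]
          exact mul_le_of_le_one_right (abs_nonneg _) (stateOf_norm _ _ _ _ _ _)
        have : (0 : ℝ) ≤ n * Bd := by positivity
        linarith
      simp only [hmin] at h1
      have h2 := (abs_le.1 h1).1
      simp only [f, src, srcF]
      linarith
    have h4 := sum_le_sum (s := (univ : Finset (ZMod 4))) fun j _ => hj j
    rw [sum_add_distrib, sum_const, sum_const, card_univ, ZMod.card] at h4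
    simp only [wgt, div_mul_eq_mul_div, ← sum_div]
    simp at h4
    linarith
  have := hiter n le_rfl
  push_cast
  linarith

/-- A single step has the size of one alternating pattern. -/
lemma inSize_le (Mo : Model X) (p : ℝ) (hp : 1 ≤ p) (m n M : ℕ) (hm : 0 < m) (hn : 1 ≤ n)
    (j : ZMod 4) (hL : #(window (sites (3 * M) n) j) * m ≤ Mo.L) (hL' : (6 * M + 1) * m ≤ Mo.L) :
    inSize Mo p m (3 * M) (sites (3 * M) n) j ≤
      Mo.size p m (6 * M + 1) (altVec (6 * M)) +
        Mo.δ ^ (1 / p) * absSum (6 * M + 1) (altVec (6 * M)) := by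
  classical
  set U := window (sites (3 * M) n) j
  have hmem : ∀ i ≤ 6 * M, brk (3 * M) j i ∈ U := fun i hi =>
    brks_subset_window _ n hn j (brk_mem _ _ (by omega))
  let P : ℕ → ℕ := fun i => rankIn U (brk (3 * M) j i)
  have hsum : ∀ G : ℚ → X, ∑ a ∈ U, jumps (3 * M) j a • G a =
      firstSign j • ∑ t ∈ range (6 * M), (-1 : ℝ) ^ t •
        (G (brk (3 * M) j t) - G (brk (3 * M) j (t + 1))) := by
    intro G
    simp only [jumps, show 2 * (3 * M) = 6 * M by ring, Finsupp.smul_apply,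
      Finsupp.finset_sum_apply, Finsupp.sub_apply, smul_eq_mul, mul_smul, sum_smul, smul_sum]
    rw [sum_comm]
    refine sum_congr rfl fun t ht => ?_
    have ht' := mem_range.1 ht
    simp only [Finsupp.single_apply, sub_smul, ite_smul, one_smul, zero_smul, smul_sub, smul_ite,
      smul_zero, sum_sub_distrib, sum_ite_eq, hmem t ht'.le, hmem (t + 1) ht', if_true]
  have e : (fun r => ∑ a ∈ U, jumps (3 * M) j a • Mo.blockVec m (Mo.z r) (rankIn U a)) =
      fun r => firstSign j • Mo.vec m (6 * M + 1) P (altVec (6 * M)) r := by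
    funext r
    rw [hsum, Model.vec, altVec, pieceVec_sum _ _ (fun i => Mo.blockVec m (Mo.z r) (P i))]
  rw [inSize, e, lpMean_smul Mo.hwt (by linarith),
    show |firstSign j| = 1 by unfold firstSign; split_ifs <;> simp, one_mul]
  exact (Mo.place p hp m _ #U hm P
    (fun i k hik hk => rankIn_strict (hmem i (by omega)) (brk_strictMono _ j hik (by omega)))
    (fun i hi => rankIn_lt (hmem i (by omega))) hL hL' _).1

/-- A word pattern dominates the drift times a coarser alternating pattern. -/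
lemma outSize_ge (Mo : Model X) (p : ℝ) (hp : 1 ≤ p) (m q n : ℕ) (hn : 2 ≤ n) (hm : 0 < m)
    (W : Finset ℚ) (w : List (ZMod 4)) (hw : w.length = n)
    (hW : (wordJumps (3 * (n + 1)) w).support ⊆ W) (hq : #W ≤ q) (hq0 : 0 < q)
    (hWL : #W * m ≤ Mo.L) (hL : (2 * (n + 1) + 1) * q * m ≤ Mo.L) :
    |wordWalk w (wordBack w) - wordWalk w 0| *
        Mo.size p (q * m) (2 * (n + 1) + 1) (altVec (2 * (n + 1))) ≤
      2 * outSize Mo p m (3 * (n + 1)) W w +
        2 * ((∑ a ∈ W, |wordJumps (3 * (n + 1)) w a|) * (Mo.δ ^ (1 / p) + 2 * (#W : ℕ) / q)) := by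
  have hp0 : 0 < p := by linarith
  set N := 3 * (n + 1) with hN
  set D := wordJumps N w
  set f := wordBack w - (⌊wordBack w⌋ : ℚ) with hf
  have hf0 : 0 ≤ f := by have := Int.floor_le (wordBack w); rw [hf]; linarith
  have hf1 : f ≤ 1 := by have := Int.lt_floor_add_one (wordBack w); rw [hf]; linarith
  let t : ℕ → ℚ := fun l => n + (l / 2 : ℕ) + if l % 2 = 0 then 0 else f
  have ht1 : ∀ l, t l ≤ t (l + 1) := fun l => by
    obtain ⟨k, rfl | rfl⟩ := Nat.even_or_odd' l
    · simp [t, show (2 * k + 1) / 2 = k by omega, hf0]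
    · simp [t, show (2 * k + 1) / 2 = k by omega, show (2 * k + 1 + 1) % 2 = 0 by omega,
        show (2 * k + 1 + 1) / 2 = k + 1 by omega]
      linarith
  have ht : ∀ i j, i ≤ j → t i ≤ t j := monotone_nat_of_le_succ ht1
  set A := wordWalk w (wordBack w) with hA
  set B := wordWalk w 0 with hB
  have hval : ∀ l ≤ 2 * (n + 1), cum D (t l) = if l % 2 = 0 then B else A := by
    intro l hl
    have hd : ((l / 2 : ℕ) : ℚ) ≤ n + 1 := by
      have : l / 2 ≤ n + 1 := by omega
      exact_mod_cast this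
    have hd' : (0 : ℚ) ≤ ((l / 2 : ℕ) : ℚ) := by positivity
    have hn' : (2 : ℚ) ≤ n := by exact_mod_cast hn
    have htl : (n : ℚ) ≤ t l ∧ t l ≤ 2 * n + 2 := by
      simp only [t]; split_ifs <;> constructor <;> linarith
    rw [cum_wordJumps N w (t l) (by rw [hw]; linarith [htl.1])
      (by rw [hw, hN]; push_cast; linarith [htl.2])]
    simp only [t]
    generalize l / 2 = k
    split_ifs with h
    · rw [show (n : ℚ) + (k : ℕ) + 0 = 0 + (((n + k : ℕ) : ℤ) : ℚ) by push_cast; ring,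
        wordWalk_add_int]
    · rw [show (n : ℚ) + (k : ℕ) + f =
          wordBack w + ((((n + k : ℕ) : ℤ) - ⌊wordBack w⌋ : ℤ) : ℚ) by
        rw [hf]; push_cast; ring, wordWalk_add_int]
  obtain ⟨π, hπm, hπb, hπ⟩ := sampling (X := X) W D hW (total_wordJumps N w) t ht (2 * (n + 1))
  obtain ⟨π', hπm', hπb', hπ'⟩ := sampling (X := X) W D hW (total_wordJumps N w)
    (fun l => t (l + 1)) (fun i j h => ht _ _ (by omega)) (2 * (n + 1))
  set c := rankCoeff W D
  have hblock : ∀ ρ : ℕ → ℕ, (∀ i j, i ≤ j → ρ i ≤ ρ j) → (∀ i, ρ i ≤ 2 * (n + 1)) →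
      lpMean Mo.wt p (Mo.vec (q * m) #W ρ c) ≤ outSize Mo p m N W w +
        (∑ a ∈ W, |D a|) * (Mo.δ ^ (1 / p) + 2 * (#W : ℕ) / q) := by
    intro ρ hρ hρb
    refine (Mo.blocking p hp m q #W (2 * (n + 1) + 1) hm hq hq0 hWL hL ρ
      (fun i j h _ => hρ i j h) (fun i _ => Nat.lt_succ_of_le (hρb i)) c).trans ?_
    exact add_le_add le_rfl (mul_le_mul_of_nonneg_right (absSum_rankCoeff W D)
      (add_nonneg (Real.rpow_nonneg Mo.hδ _) (by positivity)))
  have hvec : (fun r => (B - A) • Mo.vec (q * m) (2 * (n + 1) + 1) id (altVec (2 * (n + 1))) r) =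
      fun r => Mo.vec (q * m) #W π c r + (-1 : ℝ) • Mo.vec (q * m) #W π' c r := by
    funext r
    simp only [Model.vec, id, c]
    rw [rankCoeff_sum W D (fun i => Mo.blockVec (q * m) (Mo.z r) (π i)),
      rankCoeff_sum W D (fun i => Mo.blockVec (q * m) (Mo.z r) (π' i)),
      hπ (fun i => Mo.blockVec (q * m) (Mo.z r) i),
      hπ' (fun i => Mo.blockVec (q * m) (Mo.z r) i), altVec,
      pieceVec_sum _ _ (fun i => Mo.blockVec (q * m) (Mo.z r) i), smul_sum, smul_sum,
      ← sum_add_distrib]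
    refine sum_congr rfl fun l hl => ?_
    have hl' := mem_range.1 hl
    rw [hval l hl'.le, hval (l + 1) hl', smul_smul, smul_smul, ← add_smul]
    congr 1
    obtain ⟨k, rfl | rfl⟩ := Nat.even_or_odd' l
    · simp [pow_mul, show (2 * k + 1) % 2 = 1 by omega]; ring
    · simp [pow_add, pow_mul, show (2 * k + 1 + 1) % 2 = 0 by omega]; ring
  have hmain := congrArg (lpMean Mo.wt p) hvec
  rw [lpMean_smul Mo.hwt hp0, abs_sub_comm] at hmain
  have h1 := lpMean_add Mo.hwt hp (Mo.vec (q * m) #W π c)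
    (fun r => (-1 : ℝ) • Mo.vec (q * m) #W π' c r)
  rw [lpMean_smul Mo.hwt hp0, abs_neg, abs_one, one_mul, ← hmain] at h1
  have := hblock π hπm hπb
  have := hblock π' hπm' hπb'
  simp only [Model.size]
  linarith

/-- The arithmetic behind the contradiction. -/
lemma drift_contradiction {p K a : ℝ} {n : ℕ} (hp : 1 < p) (hK0 : 0 ≤ K) (hn2 : 2 ≤ n)
    (hnbig : (4 : ℝ) ^ p * ((7 * K) ^ p + 1) < (n : ℝ) ^ (p - 1)) (ha0 : 0 < a)
    (hfin : ((n : ℝ) / 4 * a) ^ p ≤ K ^ p * n * (7 * a) ^ p + a ^ p) : False := by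
  have hn1 : (2 : ℝ) ≤ n := by exact_mod_cast hn2
  rw [Real.mul_rpow (by positivity) ha0.le, Real.mul_rpow (by norm_num) ha0.le,
    Real.div_rpow (by positivity) (by norm_num)] at hfin
  have hap : 0 < a ^ p := Real.rpow_pos_of_pos ha0 p
  have h4p : 0 < (4 : ℝ) ^ p := by positivity
  have hnp : (n : ℝ) ^ p = n * (n : ℝ) ^ (p - 1) := by
    conv_rhs => rw [show (n : ℝ) * (n : ℝ) ^ (p - 1) =
      (n : ℝ) ^ (1 : ℝ) * (n : ℝ) ^ (p - 1) by rw [Real.rpow_one]]
    rw [← Real.rpow_add (by linarith), add_sub_cancel]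
  have hfin' : (n : ℝ) ^ p / 4 ^ p ≤ n * (7 * K) ^ p + 1 := by
    rw [Real.mul_rpow (by norm_num) hK0]
    refine le_of_mul_le_mul_right ?_ hap
    linarith
  rw [div_le_iff₀ h4p, hnp] at hfin'
  have h10 := mul_lt_mul_of_pos_left hnbig (show (0 : ℝ) < n by linarith)
  have h11 : (4 : ℝ) ^ p * 1 ≤ 4 ^ p * (n : ℝ) := mul_le_mul_of_nonneg_left (by linarith) h4p.le
  linarith

/-- Ladders of every length give models. -/
lemma exists_model {θ : ℝ} (hθ : 0 < θ)
    (hlad : ∀ k : ℕ, ∃ (r : ℝ) (x : Fin k → X) (φ : Fin k → StrongDual ℝ X),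
      (∀ i, ‖x i‖ ≤ 1) ∧ (∀ i, ‖φ i‖ ≤ 1) ∧ (∀ i j, i < j → r + θ ≤ φ i (x j)) ∧
        ∀ i j, j < i → φ i (x j) ≤ r) (L : ℕ) {δ : ℝ} (hδ : 0 < δ) :
    ∃ Mo : Model X, Mo.L = L ∧ Mo.δ = δ ∧ Mo.θ = θ := by
  classical
  obtain ⟨R, wt, z, hwt, hwt1, hz, hinv⟩ := exists_law L hδ
  set U := ∑ r, z r L with hU
  obtain ⟨r0, xl, φ, hxl, hφ, hup, hdn⟩ := hlad (2 * U + 2)
  have hzU : ∀ r i, i ≤ L → z r i ≤ U := fun r i hi =>
    ((hz r).monotone hi).trans (single_le_sum (f := fun r => z r L) (fun r _ => Nat.zero_le _)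
      (mem_univ r))
  let xx : ℕ → X := fun a => if h : a ≤ U then xl ⟨2 * a, by omega⟩ else 0
  refine ⟨(
    { x := xx, R := R, wt := wt, z := z, L := L, δ := δ, θ := θ
      hx := fun a => by
        simp only [xx]
        split_ifs
        · exact hxl _
        · simp
      hwt := hwt, hwt1 := hwt1, hδ := hδ.le, inv := hinv
      hgap := fun r m hm h2m => by
        have hsU : z r (m - 1) ≤ U := hzU r _ (by omega)
        refine ⟨r0, φ ⟨2 * z r (m - 1) + 1, by omega⟩, hφ _, fun l hl => ?_⟩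
        have h1 : z r l ≤ z r (m - 1) := (hz r).monotone (by omega)
        have h2 : z r (m - 1) < z r (m + l) := (hz r) (by omega)
        have h3 : z r (m + l) ≤ U := hzU r _ (by omega)
        simp only [xx, dif_pos (h1.trans hsU), dif_pos h3]
        exact ⟨hdn _ _ (Fin.mk_lt_mk.2 (by omega)), hup _ _ (Fin.mk_lt_mk.2 (by omega))⟩ }), rfl, rfl, rfl⟩

/-- Nontrivial Markov type excludes ladders of every length. -/
theorem no_ladders {p : ℝ} (hp : 1 < p) (hX : HasMarkovType p X) {θ : ℝ} (hθ : 0 < θ)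
    (hlad : ∀ k : ℕ, ∃ (r : ℝ) (x : Fin k → X) (φ : Fin k → StrongDual ℝ X),
      (∀ i, ‖x i‖ ≤ 1) ∧ (∀ i, ‖φ i‖ ≤ 1) ∧ (∀ i j, i < j → r + θ ≤ φ i (x j)) ∧
        ∀ i j, j < i → φ i (x j) ≤ r) : False := by
  classical
  obtain ⟨K, hK0, hK⟩ := hX
  have hp0 : 0 < p := by linarith
  obtain ⟨n, hn2, hnbig⟩ : ∃ n : ℕ, 2 ≤ n ∧
      (4 : ℝ) ^ p * ((7 * K) ^ p + 1) < (n : ℝ) ^ (p - 1) := by
    have h := ((tendsto_rpow_atTop (by linarith : 0 < p - 1)).comp
      tendsto_natCast_atTop_atTop).eventually_gt_atTop ((4 : ℝ) ^ p * ((7 * K) ^ p + 1))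
    exact ((eventually_ge_atTop 2).and h).exists
  set M := n + 1 with hM
  set N := 3 * M with hNdef
  set W := sites N n with hWdef
  choose Bw hBw using fun u : ℕ =>
    wordAvg_bound u (fun w => ∑ a ∈ W, |wordJumps N w a|)
  set Bd : ℝ := ∑ u ∈ range (n + 1), |Bw u| + ∑ j, ∑ a ∈ window W j, |jumps N j a| + 12 * M
    with hBd
  have hs1 : 0 ≤ ∑ u ∈ range (n + 1), |Bw u| := sum_nonneg fun _ _ => abs_nonneg _
  have hs2 : 0 ≤ ∑ j, ∑ a ∈ window W j, |jumps N j a| :=
    sum_nonneg fun _ _ => sum_nonneg fun _ _ => abs_nonneg _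
  have hM1 : (1 : ℝ) ≤ M := by exact_mod_cast (by omega : 1 ≤ M)
  have hBd1 : 1 ≤ Bd := by linarith
  have hBw' : ∀ w : List (ZMod 4), w.length ≤ n → ∑ a ∈ W, |wordJumps N w a| ≤ Bd := by
    intro w hw
    have h1 := (hBw w.length w rfl).trans (le_abs_self _)
    have h2 := single_le_sum (f := fun u => |Bw u|) (fun u _ => abs_nonneg _)
      (mem_range.2 (Nat.lt_succ_of_le hw))
    linarith
  have hBj : ∀ j, ∑ a ∈ window W j, |jumps N j a| ≤ Bd := fun j => by
    have h2 := single_le_sum (f := fun j => ∑ a ∈ window W j, |jumps N j a|)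
      (fun j _ => sum_nonneg fun _ _ => abs_nonneg _) (mem_univ j)
    linarith
  have hBalt : ∀ L, L ≤ 6 * M → absSum (L + 1) (altVec L) ≤ Bd := fun L hL => by
    have h1 := absSum_altVec L
    have h2 : (L : ℝ) ≤ 6 * M := by exact_mod_cast hL
    linarith
  obtain ⟨Km, hKm⟩ : ∃ Km : ℕ, Bd / (θ / 2) < 2 ^ Km :=
    pow_unbounded_of_one_lt _ (by norm_num)
  set Kb := 2 * #W + 6 * M + 3 with hKb
  set e0 := θ / 16 with he0
  set q := Kb + ⌈2 * Bd * Kb / e0⌉₊ with hq
  have hqKb : Kb ≤ q := by omega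
  have hq0 : 0 < q := by omega
  have hqe : Bd * (2 * (Kb : ℝ) / q) ≤ e0 := by
    have h1 : 2 * Bd * Kb / e0 ≤ (q : ℝ) := by
      have := Nat.le_ceil (2 * Bd * Kb / e0)
      have : (0 : ℝ) ≤ Kb := by positivity
      rw [hq]; push_cast; linarith
    rw [div_le_iff₀ (by positivity)] at h1
    rw [← mul_div_assoc, div_le_iff₀ (by exact_mod_cast hq0)]
    linarith
  set L := Kb * q ^ (Km + 2) with hL
  set Mb : ℝ := (Bd + n * Bd) ^ p with hMb
  have hMb0 : 0 < Mb := by positivity
  set δ := min ((e0 / Bd) ^ p) ((θ / 2) ^ p / ((2 * n + 1 : ℕ) * Mb)) with hδdef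
  have hδ : 0 < δ := lt_min (Real.rpow_pos_of_pos (by positivity) _) (by positivity)
  have hη : Bd * δ ^ (1 / p) ≤ e0 := by
    have h1 : δ ^ (1 / p) ≤ ((e0 / Bd) ^ p) ^ (1 / p) :=
      Real.rpow_le_rpow hδ.le (min_le_left _ _) (by positivity)
    rw [← Real.rpow_mul (by positivity), mul_one_div, div_self hp0.ne', Real.rpow_one] at h1
    rw [mul_comm]
    exact (le_div_iff₀ (by linarith)).1 h1
  have hδM : ((2 * n + 1 : ℕ) : ℝ) * (δ * Mb) ≤ (θ / 2) ^ p := by
    have h1 := min_le_right ((e0 / Bd) ^ p) ((θ / 2) ^ p / ((2 * n + 1 : ℕ) * Mb))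
    rw [← hδdef, le_div_iff₀ (by positivity)] at h1
    linarith
  obtain ⟨Mo, hMoL, hMoδ, hMoθ⟩ := exists_model hθ hlad L hδ
  clear_value L δ
  subst hMoL hMoδ hMoθ
  have hη0 : 0 ≤ Mo.δ ^ (1 / p) := Real.rpow_nonneg hδ.le _
  have herr : ∀ (S : ℝ) (k : ℕ), 0 ≤ S → S ≤ Bd → k ≤ Kb →
      S * (Mo.δ ^ (1 / p) + 2 * (k : ℝ) / q) ≤ 2 * e0 := by
    intro S k hS0 hS hk
    have h1 : S * Mo.δ ^ (1 / p) ≤ e0 := (mul_le_mul_of_nonneg_right hS hη0).trans hη
    have h2 : 2 * (k : ℝ) / q ≤ 2 * (Kb : ℝ) / q := by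
      refine div_le_div_of_nonneg_right ?_ (by positivity)
      have : (k : ℝ) ≤ Kb := by exact_mod_cast hk
      linarith
    have h3 : S * (2 * (k : ℝ) / q) ≤ e0 :=
      (mul_le_mul hS h2 (by positivity) (by linarith)).trans hqe
    show S * (Mo.δ ^ (1 / p) + 2 * (k : ℝ) / q) ≤ 2 * e0
    linarith
  have hLk : ∀ (b i : ℕ), b ≤ Kb → i ≤ Km + 2 → b * q ^ i ≤ Mo.L := fun b i hb hi =>
    (Nat.mul_le_mul hb (Nat.pow_le_pow_right hq0 hi)).trans_eq hL.symm
  set s : ℕ → ℝ := fun k => Mo.size p (q ^ k) (2 * M + 1) (altVec (2 * M)) with hs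
  have hlow : ∀ k ≤ Km, Mo.θ ≤ s k + 2 * e0 := fun k hk => by
    refine le_trans (Mo.alt_lower p hp.le hθ.le (q ^ k) q (2 * M) (pow_pos hq0 k) (by omega)
      (by omega) (hLk _ k (by omega) (by omega)) ?_) (add_le_add le_rfl ?_)
    · rw [mul_assoc, ← pow_succ']
      exact hLk 2 (k + 1) (by omega) (by omega)
    · exact herr _ _ (absSum_nonneg _ _) (hBalt _ (by omega)) (by omega)
  obtain ⟨k, hk, hk2⟩ : ∃ k < Km, s k ≤ 2 * s (k + 1) := by
    by_contra hcon
    push Not at hcon
    have hdec : ∀ k ≤ Km, 2 ^ k * s k ≤ s 0 := by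
      intro k
      induction k with
      | zero => intro _; simp
      | succ k ih =>
        intro hk
        have h1 := hcon k (by omega)
        have h2 := mul_le_mul_of_nonneg_left h1.le (by positivity : (0 : ℝ) ≤ 2 ^ k)
        have h3 := ih (by omega)
        rw [pow_succ]
        linarith
    have h1 := hdec Km le_rfl
    have h2 : s 0 ≤ Bd := (Mo.size_le p hp0 _ _ _).trans (hBalt _ (by omega))
    have h3 : Mo.θ / 2 ≤ s Km := by
      have := hlow Km le_rfl
      rw [he0] at this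
      linarith
    rw [div_lt_iff₀ (by positivity)] at hKm
    have h4 := mul_le_mul_of_nonneg_left h3 (by positivity : (0 : ℝ) ≤ 2 ^ Km)
    linarith
  set a := s (k + 1) with ha
  have ha7 : Mo.θ - 2 * e0 ≤ a := by have := hlow (k + 1) hk; linarith
  set m := q ^ k with hm
  have hm0 : 0 < m := pow_pos hq0 k
  have hWL : #W * m ≤ Mo.L := hLk _ k (by omega) (by omega)
  have hout : ∀ w : List (ZMod 4), w.length = n →
      |wordWalk w (wordBack w) - wordWalk w 0| * a ≤
        2 * outSize Mo p m N W w + 2 * (2 * e0) := by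
    intro w hw
    have h := outSize_ge Mo p hp.le m q n hn2 hm0 W w hw
      ((wordJumps_support _ w).trans (by rw [hw])) (by omega) hq0 hWL
      (by rw [hm, mul_assoc, ← pow_succ']; exact hLk _ _ (by omega) (by omega))
    rw [show q * m = q ^ (k + 1) from (pow_succ' q k).symm] at h
    refine h.trans (add_le_add le_rfl (mul_le_mul_of_nonneg_left ?_ (by norm_num)))
    exact herr _ _ (sum_nonneg fun _ _ => abs_nonneg _) (hBw' w hw.le) (by omega)
  have havg : ((n : ℝ) - 1) * a / 2 ≤ wordAvg n (fun w => outSize Mo p m N W w) := by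
    have h1 := wordAvg_mono n _ _ hout
    rw [wordAvg_add, wordAvg_mul_left, wordAvg_const] at h1
    have h2 : wordAvg n (fun w => |wordWalk w (wordBack w) - wordWalk w 0| * a) =
        a * wordAvg n (fun w => |wordWalk w (wordBack w) - wordWalk w 0|) := by
      simp only [mul_comm _ a, wordAvg_mul_left]
    rw [h2] at h1
    have h3 := mul_le_mul_of_nonneg_left (drift n) (show 0 ≤ a by linarith)
    linarith
  have hin : ∀ j, inSize Mo p m N W j ≤ 7 * a := by
    intro j
    have hU' : #(window W j) ≤ Kb := by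
      have h1 := card_union_le W (W.image (shift j))
      have h2 := card_image_le (s := W) (f := shift j)
      simp only [window]
      omega
    have h1 := inSize_le Mo p hp.le m n M hm0 (by omega) j (hLk _ k hU' (by omega))
      (hLk _ k (by omega) (by omega))
    have h2 := Mo.alt_split p hp.le m M hm0 (hLk _ k (by omega) (by omega))
    have h3 : Mo.δ ^ (1 / p) * absSum (6 * M + 1) (altVec (6 * M)) ≤ e0 := by
      rw [mul_comm]
      exact (mul_le_mul_of_nonneg_right (hBalt _ le_rfl) hη0).trans hη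
    have h4 : Mo.δ ^ (1 / p) * absSum (2 * M + 1) (altVec (2 * M)) ≤ e0 := by
      rw [mul_comm]
      exact (mul_le_mul_of_nonneg_right (hBalt _ (by omega)) hη0).trans hη
    have h5 : Mo.size p m (2 * M + 1) (altVec (2 * M)) ≤ 2 * a := hk2
    show inSize Mo p m (3 * M) (sites (3 * M) n) j ≤ 7 * a
    linarith
  have hchain := chain_bound hp.le hK0 hK Mo n N m (by omega) (by omega) hm0
    (hLk (2 * #W) k (by omega) (by omega)) Bd hBw' hBj
  have hjen := (wordAvg_rpow hp.le n (fun w => outSize Mo p m N W w)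
    (fun w => Mo.size_nonneg _ _ _ _)).2
  have hn1 : (2 : ℝ) ≤ n := by exact_mod_cast hn2
  have ha0 : 0 < a := by linarith
  have hl : ((n : ℝ) / 4 * a) ^ p ≤ wordAvg n (fun w => outSize Mo p m N W w) ^ p := by
    refine Real.rpow_le_rpow (by positivity) (le_trans ?_ havg) hp0.le
    have : 0 ≤ ((n : ℝ) - 2) * a := mul_nonneg (by linarith) ha0.le
    linarith
  have hr : (∑ j, inSize Mo p m N W j ^ p) / 4 ≤ (7 * a) ^ p := by
    have := sum_le_sum (s := (univ : Finset (ZMod 4))) fun j _ =>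
      Real.rpow_le_rpow (lpMean_nonneg Mo.hwt _) (hin j) hp0.le
    simp only [sum_const, card_univ, ZMod.card, nsmul_eq_mul] at this
    rw [div_le_iff₀ (by norm_num)]
    simp only [inSize]
    push_cast at this
    linarith
  have hd : (Mo.θ / 2) ^ p ≤ a ^ p := Real.rpow_le_rpow (by positivity) (by linarith) hp0.le
  have hKn : (0 : ℝ) ≤ K ^ p * n := by positivity
  have hfin : ((n : ℝ) / 4 * a) ^ p ≤ K ^ p * n * (7 * a) ^ p + a ^ p := by
    have := mul_le_mul_of_nonneg_left hr hKn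
    have h9 : ((2 * n + 1 : ℕ) : ℝ) * (Mo.δ * (Bd + n * Bd) ^ p) ≤ (Mo.θ / 2) ^ p := hδM
    linarith
  exact drift_contradiction hp hK0 hn2 hnbig ha0 hfin

end Vale.Agent.P125
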